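import Vale.Agent.P372.BF.Ext
import Vale.Agent.P372.Lim.Count

open Matrix Kronecker
open scoped ComplexOrder MatrixOrder

set_option linter.unusedSectionVars false

namespace Vale.Agent.P372

namespace BF

variable {A B E : Type} [Fintype A] [DecidableEq A] [Fintype B] [DecidableEq B]
  [Fintype E] [DecidableEq E]

theorem contr_of_between {Z : Matrix E E ℂ} (h0 : Z.PosSemidef) (h1 : (1 - Z).PosSemidef) :
    Contr Z := by
  obtain ⟨P, hP, hPZ⟩ := exists_sqrt h0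
  have h2 : (1 - Z * Z).PosSemidef := by
    have h3 : 1 - Z * Z = (1 - Z) + Pᴴ * (1 - Z) * P := by
      rw [hP.1.eq, ← hPZ]
      noncomm_ring
    rw [h3]
    exact h1.add (h1.conjTranspose_mul_mul_same P)
  refine ⟨?_, ?_⟩ <;> rw [h0.1.eq] <;> exact h2

theorem re_tr_mul_nonneg {P Q : Matrix E E ℂ} (hP : P.PosSemidef) (hQ : Q.PosSemidef) :
    0 ≤ (P * Q).trace.re := by
  obtain ⟨C, rfl⟩ := exists_eq_conjTranspose_mul_self hP
  have h : (Cᴴ * C * Q).trace = (C * Q * Cᴴ).trace := by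
    rw [trace_mul_comm (C * Q), Matrix.mul_assoc]
  rw [h]
  exact Lim.re_tr_nonneg (hQ.mul_mul_conjTranspose_same C)

theorem eve_eq' (Ψ : Matrix (A × B) E ℂ) (M : Matrix A A ℂ) (N : Matrix B B ℂ) :
    eve Ψ M N = (Ψᴴ * (M ⊗ₖ N) * Ψ)ᵀ := by
  ext e e'
  simp only [eve, Matrix.transpose_apply, Matrix.mul_apply, conjTranspose_apply,
    kroneckerMap_apply, Finset.sum_mul]
  refine Finset.sum_congr rfl fun p _ => Finset.sum_congr rfl fun q _ => ?_
  ring

/-- Eve can realise every decomposition of an operator below the state. -/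
theorem exists_eve {K : Type} [Fintype K] (Ψ : Matrix (A × B) E ℂ) {W' : Matrix (A × B) (A × B) ℂ}
    (h1 : (Ψ * Ψᴴ) * W' = 1) {M : K → Matrix (A × B) (A × B) ℂ} (hM : ∀ k, (M k).PosSemidef)
    (hM1 : (Ψ * Ψᴴ - ∑ k, M k).PosSemidef) : ∃ Z : K → Matrix E E ℂ, (∀ k, (Z k).PosSemidef) ∧
      (1 - ∑ k, Z k).PosSemidef ∧
      ∀ k X Y, (Z k * eve Ψ X Y).trace = ((X ⊗ₖ Y) * M k).trace := by
  have hWh : (Ψ * Ψᴴ)ᴴ = Ψ * Ψᴴ := by rw [conjTranspose_mul, conjTranspose_conjTranspose]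
  have h2 : W' * (Ψ * Ψᴴ) = 1 := mul_eq_one_comm.mp h1
  have hW' : W'ᴴ = W' := by
    have h3 : W'ᴴ * (Ψ * Ψᴴ) = 1 := by
      have := congrArg conjTranspose h1
      rwa [conjTranspose_mul, hWh, conjTranspose_one] at this
    calc W'ᴴ = W'ᴴ * ((Ψ * Ψᴴ) * W') := by rw [h1, Matrix.mul_one]
      _ = (W'ᴴ * (Ψ * Ψᴴ)) * W' := by simp only [Matrix.mul_assoc]
      _ = W' := by rw [h3, Matrix.one_mul]
  have hsum : ∑ k, Ψᴴ * W' * M k * (W' * Ψ) = Ψᴴ * W' * Ψ -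
      (W' * Ψ)ᴴ * (Ψ * Ψᴴ - ∑ k, M k) * (W' * Ψ) := by
    rw [← Matrix.sum_mul, ← Matrix.mul_sum, conjTranspose_mul, hW', Matrix.mul_sub,
      Matrix.sub_mul]
    have h5 : Ψᴴ * W' * (Ψ * Ψᴴ) * (W' * Ψ) = Ψᴴ * W' * Ψ := by
      calc Ψᴴ * W' * (Ψ * Ψᴴ) * (W' * Ψ) = Ψᴴ * W' * ((Ψ * Ψᴴ) * W') * Ψ := by
            simp only [Matrix.mul_assoc]
        _ = _ := by rw [h1, Matrix.mul_one]
    rw [h5]
    abel
  refine ⟨fun k => (Ψᴴ * W' * M k * (W' * Ψ))ᵀ, fun k => ?_, ?_, ?_⟩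
  · refine PosSemidef.transpose ?_
    have h4 : Ψᴴ * W' * M k * (W' * Ψ) = (W' * Ψ)ᴴ * M k * (W' * Ψ) := by
      rw [conjTranspose_mul, hW']
    rw [h4]
    exact (hM k).conjTranspose_mul_mul_same _
  · have h5 : (1 : Matrix E E ℂ) - ∑ k, (Ψᴴ * W' * M k * (W' * Ψ))ᵀ =
        ((1 - Ψᴴ * W' * Ψ)ᴴ * (1 - Ψᴴ * W' * Ψ) +
          (W' * Ψ)ᴴ * (Ψ * Ψᴴ - ∑ k, M k) * (W' * Ψ))ᵀ := by
      rw [← Matrix.transpose_sum, hsum]
      have h6 : (Ψᴴ * W' * Ψ)ᴴ = Ψᴴ * W' * Ψ := by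
        rw [conjTranspose_mul, conjTranspose_mul, conjTranspose_conjTranspose, hW',
          Matrix.mul_assoc]
      have h7 : (Ψᴴ * W' * Ψ) * (Ψᴴ * W' * Ψ) = Ψᴴ * W' * Ψ := by
        calc (Ψᴴ * W' * Ψ) * (Ψᴴ * W' * Ψ) = Ψᴴ * W' * ((Ψ * Ψᴴ) * W') * Ψ := by
              simp only [Matrix.mul_assoc]
          _ = _ := by rw [h1, Matrix.mul_one]
      have h8 : (1 - Ψᴴ * W' * Ψ)ᴴ * (1 - Ψᴴ * W' * Ψ) = 1 - Ψᴴ * W' * Ψ := by
        rw [conjTranspose_sub, conjTranspose_one, h6, Matrix.sub_mul, Matrix.mul_sub,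
          Matrix.mul_sub, h7, Matrix.one_mul, Matrix.mul_one, Matrix.one_mul]
        abel
      rw [h8, ← transpose_one, ← transpose_sub, transpose_one]
      congr 1
      abel
    rw [h5]
    exact ((posSemidef_conjTranspose_mul_self _).add
      (hM1.conjTranspose_mul_mul_same _)).transpose
  · intro k X Y
    rw [eve_eq', ← Matrix.transpose_mul, trace_transpose]
    calc (Ψᴴ * (X ⊗ₖ Y) * Ψ * (Ψᴴ * W' * M k * (W' * Ψ))).trace
        = (Ψᴴ * ((X ⊗ₖ Y) * ((Ψ * Ψᴴ) * W') * M k * (W' * Ψ))).trace := by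
          simp only [Matrix.mul_assoc]
      _ = ((X ⊗ₖ Y) * M k * (W' * (Ψ * Ψᴴ))).trace := by
          rw [h1, Matrix.mul_one, trace_mul_comm]
          simp only [Matrix.mul_assoc]
      _ = _ := by rw [h2, Matrix.mul_one]

theorem sum_zero_of_posSemidef {K : Type} [Fintype K] {g : K → Matrix B B ℂ}
    (hg : ∀ k, (g k).PosSemidef) (h : ∑ k, g k = 0) (k : K) : g k = 0 := by
  have h1 : ∀ l ∈ (Finset.univ : Finset K), 0 ≤ (g l).trace := fun l _ => (hg l).trace_nonneg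
  have h2 : ∑ l, (g l).trace = 0 := by rw [← trace_sum, h, trace_zero]
  exact (hg k).trace_eq_zero_iff.mp ((Finset.sum_eq_zero_iff_of_nonneg h1).mp h2 k
    (Finset.mem_univ k))

/-- The bound for one transcript. -/
theorem transcript_bound {K : Type} [Fintype K] [DecidableEq K] (Ψ : Matrix (A × B) E ℂ)
    {W' : Matrix (A × B) (A × B) ℂ} (h1 : (Ψ * Ψᴴ) * W' = 1) {f : K → Matrix A A ℂ}
    {g : K → Matrix B B ℂ} (hf : ∀ k, (f k).PosSemidef) (hg : ∀ k, (g k).PosSemidef) {κ : ℝ}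
    (hκ : 0 ≤ κ) (h : ∃ L, IsExtK κ (Ψ * Ψᴴ) (∑ k, g k) L) {σ : Matrix E E ℂ}
    (hσ : σ.PosSemidef) :
    ∑ k, (eve Ψ (f k) (g k)).trace.re ≤ κ * ((Fintype.card K : ℝ)⁻¹ * σ.trace.re +
      ∑ k, ∑ l, traceNorm (eve Ψ (f k) (g l) - if k = l then ((Fintype.card K : ℂ)⁻¹) • σ
        else 0)) := by
  obtain ⟨M, N, hM, hM1, hN, hM2⟩ := exists_move hg h
  obtain ⟨Z, hZ, hZ1, hZ2⟩ := exists_eve Ψ h1 hM hM1
  have hle : ∀ k, (1 - Z k).PosSemidef := by
    intro k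
    have : 1 - Z k = (1 - ∑ l, Z l) + ∑ l ∈ Finset.univ.erase k, Z l := by
      rw [← Finset.add_sum_erase _ _ (Finset.mem_univ k)]
      abel
    rw [this]
    exact hZ1.add (posSemidef_sum _ fun l _ => hZ l)
  have key : ∀ k, (eve Ψ (f k) (g k)).trace.re ≤
      κ * (∑ l, (Z k * eve Ψ (f k) (g l)).trace).re := by
    intro k
    have e1 : ∀ (N : Matrix (A × B) (A × B) ℂ) (Q : Matrix B B ℂ), ((f k ⊗ₖ Q) * N).trace =
        ∑ a, ∑ a', f k a' a * ∑ b, ∑ b', N (a, b) (a', b') * Q b' b := by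
      intro N Q
      rw [trace_mul_comm]
      simp only [Matrix.trace, Matrix.diag, Matrix.mul_apply, kroneckerMap_apply,
        Fintype.sum_prod_type, Finset.mul_sum]
      refine Finset.sum_congr rfl fun a _ => ?_
      rw [Finset.sum_comm]
      refine Finset.sum_congr rfl fun a' _ => Finset.sum_congr rfl fun b _ =>
        Finset.sum_congr rfl fun b' _ => ?_
      ring
    have e2 : (eve Ψ (f k) (g k)).trace = ((f k ⊗ₖ g k) * (Ψ * Ψᴴ)).trace := by
      rw [eve_eq', trace_transpose, trace_mul_comm, ← Matrix.mul_assoc, trace_mul_comm]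
    have e3 : ((f k ⊗ₖ g k) * N).trace = ((f k ⊗ₖ (∑ l, g l)) * M k).trace := by
      rw [e1, e1]
      simp only [hM2]
    have e4 := re_tr_mul_nonneg ((hf k).kronecker (hg k)) hN
    rw [Matrix.mul_sub, Matrix.mul_smul, trace_sub, trace_smul, smul_eq_mul, e3, ← hZ2,
      Complex.sub_re, Complex.re_ofReal_mul, eve_sum_right, Matrix.mul_sum, trace_sum] at e4
    rw [e2]
    linarith
  have hb : ∀ k, (∑ l, (Z k * eve Ψ (f k) (g l)).trace).re ≤
      (Fintype.card K : ℝ)⁻¹ * (Z k * σ).trace.re +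
      ∑ l, traceNorm (eve Ψ (f k) (g l) - if k = l then ((Fintype.card K : ℂ)⁻¹) • σ else 0) := by
    intro k
    have e1 : ∑ l, (Z k * eve Ψ (f k) (g l)).trace = ((Fintype.card K : ℂ)⁻¹) * (Z k * σ).trace +
        ∑ l, (Z k * (eve Ψ (f k) (g l) - if k = l then ((Fintype.card K : ℂ)⁻¹) • σ
          else 0)).trace := by
      simp only [Matrix.mul_sub, trace_sub, Finset.sum_sub_distrib]
      have e2 : ∑ l, (Z k * if k = l then ((Fintype.card K : ℂ)⁻¹) • σ else 0).trace =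
          ((Fintype.card K : ℂ)⁻¹) * (Z k * σ).trace := by
        rw [Finset.sum_eq_single k]
        · rw [if_pos rfl, Matrix.mul_smul, trace_smul, smul_eq_mul]
        · intro l _ hl
          rw [if_neg (Ne.symm hl), Matrix.mul_zero, trace_zero]
        · simp
      rw [e2]
      ring
    rw [e1, Complex.add_re]
    refine add_le_add (le_of_eq ?_) ?_
    · have : ((Fintype.card K : ℂ)⁻¹) = (((Fintype.card K : ℝ)⁻¹ : ℝ) : ℂ) := by push_cast; rfl
      rw [this, Complex.re_ofReal_mul]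
    · rw [Complex.re_sum]
      refine Finset.sum_le_sum fun l _ => ?_
      exact (Complex.re_le_norm _).trans
        (norm_trace_mul_le (contr_of_between (hZ k) (hle k)) _)
  refine (Finset.sum_le_sum fun k _ => key k).trans ?_
  rw [← Finset.mul_sum]
  refine mul_le_mul_of_nonneg_left ?_ hκ
  refine (Finset.sum_le_sum fun k _ => hb k).trans ?_
  rw [Finset.sum_add_distrib, ← Finset.mul_sum]
  refine add_le_add (mul_le_mul_of_nonneg_left ?_ (by positivity)) le_rfl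
  have e3 : ∑ k, (Z k * σ).trace.re = ((∑ k, Z k) * σ).trace.re := by
    rw [Matrix.sum_mul, trace_sum, Complex.re_sum]
  have e4 : 0 ≤ ((1 - ∑ k, Z k) * σ).trace.re := re_tr_mul_nonneg hZ1 hσ
  rw [Matrix.sub_mul, Matrix.one_mul, trace_sub, Complex.sub_re] at e4
  rw [e3]
  linarith

/-- The same with the roles of the parties exchanged. -/
theorem transcript_bound' {K : Type} [Fintype K] [DecidableEq K] (Ψ : Matrix (A × B) E ℂ)
    {W' : Matrix (A × B) (A × B) ℂ} (h1 : (Ψ * Ψᴴ) * W' = 1) {f : K → Matrix A A ℂ}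
    {g : K → Matrix B B ℂ} (hf : ∀ k, (f k).PosSemidef) (hg : ∀ k, (g k).PosSemidef) {κ : ℝ}
    (hκ : 0 ≤ κ) (h : ∃ L, IsExtK κ ((Ψ * Ψᴴ).submatrix Prod.swap Prod.swap) (∑ k, f k) L)
    {σ : Matrix E E ℂ} (hσ : σ.PosSemidef) :
    ∑ k, (eve Ψ (f k) (g k)).trace.re ≤ κ * ((Fintype.card K : ℝ)⁻¹ * σ.trace.re +
      ∑ k, ∑ l, traceNorm (eve Ψ (f k) (g l) - if k = l then ((Fintype.card K : ℂ)⁻¹) • σ
        else 0)) := by
  obtain ⟨Φ, hΦ⟩ : ∃ Φ : Matrix (B × A) E ℂ, Φ = Ψ.submatrix Prod.swap id := ⟨_, rfl⟩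
  have hsw : ∀ (X : Matrix A A ℂ) (Y : Matrix B B ℂ), eve Ψ X Y = eve Φ Y X := by
    intro X Y
    ext e e'
    rw [hΦ]
    simp only [eve, Matrix.submatrix_apply, id_eq]
    rw [← Equiv.sum_comp (Equiv.prodComm B A)]
    refine Finset.sum_congr rfl fun p _ => ?_
    rw [← Equiv.sum_comp (Equiv.prodComm B A)]
    refine Finset.sum_congr rfl fun q _ => ?_
    simp only [Equiv.prodComm_apply, Prod.swap]
    ring
  have hR : Φ * Φᴴ = (Ψ * Ψᴴ).submatrix (Prod.swap : B × A → A × B) Prod.swap := by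
    rw [hΦ]
    ext p q
    simp only [Matrix.mul_apply, conjTranspose_apply, Matrix.submatrix_apply, id_eq]
  have h1' : (Φ * Φᴴ) * (W'.submatrix (Prod.swap : B × A → A × B) Prod.swap) = 1 := by
    have h4 := submatrix_mul_equiv (Ψ * Ψᴴ) W' (Prod.swap : B × A → A × B)
      (Equiv.prodComm B A) Prod.swap
    rw [hR]
    refine h4.trans ?_
    rw [h1]
    exact submatrix_one_equiv (Equiv.prodComm B A)
  rw [← hR] at h
  have h5 := transcript_bound Φ h1' hg hf hκ h hσ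
  have e1 : ∀ k l, eve Ψ (f k) (g l) = eve Φ (g l) (f k) := fun k l => hsw _ _
  have e2 : ∑ k, ∑ l, traceNorm (eve Ψ (f k) (g l) -
      if k = l then ((Fintype.card K : ℂ)⁻¹) • σ else 0) =
      ∑ k, ∑ l, traceNorm (eve Φ (g k) (f l) -
      if k = l then ((Fintype.card K : ℂ)⁻¹) • σ else 0) := by
    rw [Finset.sum_comm]
    refine Finset.sum_congr rfl fun k _ => Finset.sum_congr rfl fun l _ => ?_
    rw [e1]
    by_cases hkl : k = l
    · rw [if_pos hkl, if_pos hkl.symm]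
    · rw [if_neg hkl, if_neg (Ne.symm hkl)]
  rw [e2]
  simp only [e1]
  exact h5

theorem low_bound {K : Type} [Fintype K] [DecidableEq K] [Nonempty K] (Ψ : Matrix (A × B) E ℂ)
    (f : K → Matrix A A ℂ) (g : K → Matrix B B ℂ) (σ : Matrix E E ℂ) :
    σ.trace.re - ∑ k, ∑ l, traceNorm (eve Ψ (f k) (g l) -
      if k = l then ((Fintype.card K : ℂ)⁻¹) • σ else 0) ≤
        ∑ k, (eve Ψ (f k) (g k)).trace.re := by
  have hc : (Fintype.card K : ℝ) ≠ 0 := by
    exact_mod_cast Fintype.card_ne_zero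
  have h1 : ∀ k, (Fintype.card K : ℝ)⁻¹ * σ.trace.re - ∑ l, traceNorm (eve Ψ (f k) (g l) -
      if k = l then ((Fintype.card K : ℂ)⁻¹) • σ else 0) ≤ (eve Ψ (f k) (g k)).trace.re := by
    intro k
    have h2 : traceNorm (eve Ψ (f k) (g k) - ((Fintype.card K : ℂ)⁻¹) • σ) ≤
        ∑ l, traceNorm (eve Ψ (f k) (g l) -
          if k = l then ((Fintype.card K : ℂ)⁻¹) • σ else 0) := by
      have h3 := Finset.single_le_sum (f := fun l => traceNorm (eve Ψ (f k) (g l) -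
          if k = l then ((Fintype.card K : ℂ)⁻¹) • σ else 0))
          (fun l _ => traceNorm_nonneg _) (Finset.mem_univ k)
      simpa only [if_true] using h3
    have h4 := (Complex.re_le_norm _).trans
      (norm_trace_le (-(eve Ψ (f k) (g k) - ((Fintype.card K : ℂ)⁻¹) • σ)))
    rw [traceNorm_neg, trace_neg, trace_sub, trace_smul, smul_eq_mul] at h4
    have h5 : ((Fintype.card K : ℂ)⁻¹) = (((Fintype.card K : ℝ)⁻¹ : ℝ) : ℂ) := by push_cast; rfl
    have h6 : (-((eve Ψ (f k) (g k)).trace - (Fintype.card K : ℂ)⁻¹ * σ.trace)).re =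
        (Fintype.card K : ℝ)⁻¹ * σ.trace.re - (eve Ψ (f k) (g k)).trace.re := by
      rw [Complex.neg_re, Complex.sub_re, h5, Complex.re_ofReal_mul]
      ring
    rw [h6] at h4
    linarith
  have h7 : ∑ _k : K, (Fintype.card K : ℝ)⁻¹ * σ.trace.re = σ.trace.re := by
    rw [Finset.sum_const, Finset.card_univ, nsmul_eq_mul, ← mul_assoc, mul_inv_cancel₀ hc,
      one_mul]
  calc σ.trace.re - ∑ k, ∑ l, traceNorm (eve Ψ (f k) (g l) -
      if k = l then ((Fintype.card K : ℂ)⁻¹) • σ else 0)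
      = ∑ k, ((Fintype.card K : ℝ)⁻¹ * σ.trace.re - ∑ l, traceNorm (eve Ψ (f k) (g l) -
      if k = l then ((Fintype.card K : ℂ)⁻¹) • σ else 0)) := by
        rw [Finset.sum_sub_distrib, h7]
    _ ≤ _ := Finset.sum_le_sum fun k _ => h1 k

/-- The bound for all protocols in which, for every transcript, one of the two parties has a total
effect relative to which the state is extendible. -/
theorem key_bound {K T : Type} [Fintype K] [DecidableEq K] [Nonempty K] [Fintype T]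
    (Ψ : Matrix (A × B) E ℂ)
    {W' : Matrix (A × B) (A × B) ℂ} (h1 : (Ψ * Ψᴴ) * W' = 1) (f : T → K → Matrix A A ℂ)
    (g : T → K → Matrix B B ℂ) (hf : ∀ t k, (f t k).PosSemidef) (hg : ∀ t k, (g t k).PosSemidef)
    {κ : ℝ} (hκ : 0 ≤ κ)
    (h : ∀ t, (∑ k, f t k = 0 ∨ ∃ L, IsExtK κ ((Ψ * Ψᴴ).submatrix Prod.swap Prod.swap)
      (∑ k, f t k) L) ∨ (∑ k, g t k = 0 ∨ ∃ L, IsExtK κ (Ψ * Ψᴴ) (∑ k, g t k) L)) {ε : ℝ}
    (herr : KeyError f g Ψ ε) : 1 - ε ≤ κ * ((Fintype.card K : ℝ)⁻¹ + ε) := by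
  obtain ⟨σ, hσ, hσ1, hsum⟩ := herr
  obtain ⟨e, he⟩ : ∃ e : T → ℝ, ∀ t, e t = ∑ k, ∑ l, traceNorm (eve Ψ (f t k) (g t l) -
        if k = l then ((Fintype.card K : ℂ)⁻¹) • σ t else 0) := ⟨_, fun _ => rfl⟩
  have he0 : ∀ t, 0 ≤ e t := by
    intro t
    rw [he]
    exact Finset.sum_nonneg fun k _ => Finset.sum_nonneg fun l _ => traceNorm_nonneg _
  have hbound : ∀ t, ∑ k, (eve Ψ (f t k) (g t k)).trace.re ≤
      κ * ((Fintype.card K : ℝ)⁻¹ * (σ t).trace.re + e t) := by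
    intro t
    have hnn : 0 ≤ κ * ((Fintype.card K : ℝ)⁻¹ * (σ t).trace.re + e t) :=
      mul_nonneg hκ (add_nonneg (mul_nonneg (by positivity) (Lim.re_tr_nonneg (hσ t))) (he0 t))
    rcases h t with (h0 | h2) | (h0 | h2)
    · have h3 : ∀ k, f t k = 0 := sum_zero_of_posSemidef (hf t) h0
      have h4 : ∑ k, (eve Ψ (f t k) (g t k)).trace.re = 0 := by
        refine Finset.sum_eq_zero fun k _ => ?_
        rw [h3, eve_zero_left, trace_zero, Complex.zero_re]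
      rw [h4]
      exact hnn
    · rw [he]
      exact transcript_bound' Ψ h1 (hf t) (hg t) hκ h2 (hσ t)
    · have h3 : ∀ k, g t k = 0 := sum_zero_of_posSemidef (hg t) h0
      have h4 : ∑ k, (eve Ψ (f t k) (g t k)).trace.re = 0 := by
        refine Finset.sum_eq_zero fun k _ => ?_
        rw [h3, eve_zero_right, trace_zero, Complex.zero_re]
      rw [h4]
      exact hnn
    · rw [he]
      exact transcript_bound Ψ h1 (hf t) (hg t) hκ h2 (hσ t)
  have hlow : ∀ t, (σ t).trace.re - e t ≤ ∑ k, (eve Ψ (f t k) (g t k)).trace.re := by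
    intro t
    rw [he]
    exact low_bound Ψ (f t) (g t) (σ t)
  have hσ1' : ∑ t, (σ t).trace.re = 1 := by
    rw [← Complex.re_sum, hσ1, Complex.one_re]
  have hsum' : ∑ t, e t ≤ ε := by simpa only [he] using hsum
  have e1 : 1 - ∑ t, e t ≤ κ * ((Fintype.card K : ℝ)⁻¹ + ∑ t, e t) := by
    calc 1 - ∑ t, e t = ∑ t, ((σ t).trace.re - e t) := by rw [Finset.sum_sub_distrib, hσ1']
      _ ≤ ∑ t, ∑ k, (eve Ψ (f t k) (g t k)).trace.re := Finset.sum_le_sum fun t _ => hlow t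
      _ ≤ ∑ t, κ * ((Fintype.card K : ℝ)⁻¹ * (σ t).trace.re + e t) :=
          Finset.sum_le_sum fun t _ => hbound t
      _ = _ := by
        rw [← Finset.mul_sum, Finset.sum_add_distrib, ← Finset.mul_sum, hσ1', mul_one]
  have e2 : κ * ((Fintype.card K : ℝ)⁻¹ + ∑ t, e t) ≤ κ * ((Fintype.card K : ℝ)⁻¹ + ε) :=
    mul_le_mul_of_nonneg_left (by linarith) hκ
  linarith

end BF

end Vale.Agent.P372
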