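import Vale.Agent.P372.BF.Defs
import Vale.Agent.P372.BF.Key

open Matrix Kronecker
open scoped ComplexOrder MatrixOrder

set_option linter.unusedSectionVars false

namespace Vale.Agent.P372

namespace BF

variable {A B E : Type} [Fintype A] [DecidableEq A] [Fintype B] [DecidableEq B]
  [Fintype E] [DecidableEq E]

section dep

variable {ι : Type} [Fintype ι] [DecidableEq ι] {D : ι → Type} [∀ i, Fintype (D i)]
  [∀ i, DecidableEq (D i)]

/-- Products of positive operators are positive. -/
theorem piD_posSemidef {X : ∀ i, Matrix (D i) (D i) ℂ} (h : ∀ i, (X i).PosSemidef) :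
    (Matrix.of fun e f : ∀ i, D i => ∏ i, X i (e i) (f i)).PosSemidef := by
  choose C hC using fun i => exists_eq_conjTranspose_mul_self (h i)
  have h1 : (Matrix.of fun e f : ∀ i, D i => ∏ i, X i (e i) (f i)) =
      (Matrix.of fun e f : ∀ i, D i => ∏ i, C i (e i) (f i))ᴴ *
        (Matrix.of fun e f : ∀ i, D i => ∏ i, C i (e i) (f i)) := by
    ext e f
    rw [Matrix.mul_apply]
    simp only [Matrix.of_apply, conjTranspose_apply, star_prod, ← Finset.prod_mul_distrib]
    have h2 := Finset.prod_univ_sum (fun i : ι => (Finset.univ : Finset (D i)))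
      (fun i c => star (C i c (e i)) * C i c (f i))
    rw [Fintype.piFinset_univ] at h2
    rw [← h2]
    refine Finset.prod_congr rfl fun i _ => ?_
    rw [hC i, Matrix.mul_apply]
    rfl
  rw [h1]
  exact posSemidef_conjTranspose_mul_self _

end dep

section part

variable {X : Type} {n m : ℕ} (π : Fin n → Fin m)

/-- The blocks of a partition. -/
def blk : (Fin n → X) ≃ (∀ i, {j // π j = i} → X) where
  toFun x i j := x j.1
  invFun z j := z (π j) ⟨j, rfl⟩
  left_inv x := rfl
  right_inv z := by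
    funext i ⟨j, hj⟩
    subst hj
    rfl

theorem sum_blk [Fintype X] (F : ∀ i, ({j // π j = i} → X) → ℂ) :
    ∑ x : Fin n → X, ∏ i, F i (fun j => x j) = ∏ i, ∑ y, F i y := by
  have h2 := Finset.prod_univ_sum
    (fun i : Fin m => (Finset.univ : Finset ({j // π j = i} → X))) F
  rw [Fintype.piFinset_univ] at h2
  rw [h2, ← Equiv.sum_comp (blk π)]
  rfl

end part

/-- Copies of a state, indexed by any finite set. -/
def cop (ι : Type) [Fintype ι] (ρ : Matrix (A × B) (A × B) ℂ) :
    Matrix ((ι → A) × (ι → B)) ((ι → A) × (ι → B)) ℂ :=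
  fun p q => ∏ j, ρ (p.1 j, p.2 j) (q.1 j, q.2 j)

/-- Product of operators on the blocks of a partition. -/
def bprod {n m : ℕ} (π : Fin n → Fin m)
    (R : ∀ i, Matrix (({j // π j = i} → A) × ({j // π j = i} → B))
      (({j // π j = i} → A) × ({j // π j = i} → B)) ℂ) :
    Matrix ((Fin n → A) × (Fin n → B)) ((Fin n → A) × (Fin n → B)) ℂ :=
  fun p q => ∏ i, R i (fun j => p.1 j, fun j => p.2 j) (fun j => q.1 j, fun j => q.2 j)

theorem bprod_posSemidef {n m : ℕ} (π : Fin n → Fin m)
    {R : ∀ i, Matrix (({j // π j = i} → A) × ({j // π j = i} → B))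
      (({j // π j = i} → A) × ({j // π j = i} → B)) ℂ} (h : ∀ i, (R i).PosSemidef) :
    (bprod π R).PosSemidef :=
  (piD_posSemidef h).submatrix
    (fun (p : (Fin n → A) × (Fin n → B)) (i : Fin m) =>
      ((fun j => p.1 j, fun j => p.2 j) : ({j // π j = i} → A) × ({j // π j = i} → B)))

theorem cop_eq_bprod {n m : ℕ} (π : Fin n → Fin m) (ρ : Matrix (A × B) (A × B) ℂ) :
    cop (Fin n) ρ = bprod π fun i => cop {j // π j = i} ρ := by
  ext p q
  simp only [cop, bprod]
  exact (Fintype.prod_fiberwise π fun j => ρ (p.1 j, p.2 j) (q.1 j, q.2 j)).symm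

/-- The product is linear in every factor. -/
theorem bprod_update {n m : ℕ} (π : Fin n → Fin m)
    (R : ∀ i, Matrix (({j // π j = i} → A) × ({j // π j = i} → B))
      (({j // π j = i} → A) × ({j // π j = i} → B)) ℂ) (i : Fin m) (x y : ℂ)
    (U V : Matrix (({j // π j = i} → A) × ({j // π j = i} → B))
      (({j // π j = i} → A) × ({j // π j = i} → B)) ℂ) :
    bprod π (Function.update R i (x • U - y • V)) =
      x • bprod π (Function.update R i U) - y • bprod π (Function.update R i V) := by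
  ext p q
  have h : ∀ W, bprod π (Function.update R i W) p q =
      W (fun j => p.1 j, fun j => p.2 j) (fun j => q.1 j, fun j => q.2 j) *
        ∏ k ∈ Finset.univ.erase i, R k (fun j => p.1 j, fun j => p.2 j)
          (fun j => q.1 j, fun j => q.2 j) := by
    intro W
    rw [bprod, ← Finset.mul_prod_erase Finset.univ _ (Finset.mem_univ i)]
    congr 1
    · rw [Function.update_self]
    · refine Finset.prod_congr rfl fun k hk => ?_
      rw [Function.update_of_ne (Finset.ne_of_mem_erase hk)]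
  rw [Matrix.sub_apply, Matrix.smul_apply, Matrix.smul_apply, h, h, h, Matrix.sub_apply,
    Matrix.smul_apply, Matrix.smul_apply]
  simp only [smul_eq_mul]
  ring

theorem ext_blocks {n m : ℕ} (π : Fin n → Fin m)
    {R : ∀ i, Matrix (({j // π j = i} → A) × ({j // π j = i} → B))
      (({j // π j = i} → A) × ({j // π j = i} → B)) ℂ}
    {Q : ∀ i, Matrix ({j // π j = i} → B) ({j // π j = i} → B) ℂ}
    (h : ∀ i, ∃ K, IsExt (R i) (Q i) K)
    {G : Matrix (Fin n → B) (Fin n → B) ℂ}
    (hG : ∀ p q, G p q = ∏ i, Q i (fun j => p j) (fun j => q j)) :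
    ∃ K, IsExt (bprod π R) G K := by
  choose K hK using h
  refine ⟨fun p q => ∏ i, K i (fun j => p.1 j, fun j => p.2.1 j, fun j => p.2.2 j)
    (fun j => q.1 j, fun j => q.2.1 j, fun j => q.2.2 j), ?_, ?_, ?_⟩
  · exact (piD_posSemidef fun i => (hK i).1).submatrix
      (fun (p : (Fin n → A) × (Fin n → B) × (Fin n → B)) (i : Fin m) =>
        ((fun j => p.1 j, fun j => p.2.1 j, fun j => p.2.2 j) :
          ({j // π j = i} → A) × ({j // π j = i} → B) × ({j // π j = i} → B)))
  · intro a b a' b'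
    simp only [bprod, hG, ← Finset.prod_mul_distrib]
    have e1 : ∀ c : Fin n → B, ∑ c' : Fin n → B, ∏ i,
        (K i (fun j => a j, fun j => b j, fun j => c j)
          (fun j => a' j, fun j => b' j, fun j => c' j) *
          Q i (fun j => c' j) (fun j => c j)) =
        ∏ i, ∑ c', K i (fun j => a j, fun j => b j, fun j => c j)
          (fun j => a' j, fun j => b' j, c') * Q i c' (fun j => c j) := by
      intro c
      exact sum_blk π fun i c' => K i (fun j => a j, fun j => b j, fun j => c j)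
          (fun j => a' j, fun j => b' j, c') * Q i c' (fun j => c j)
    simp only [e1]
    refine (sum_blk π fun i c => ∑ c', K i (fun j => a j, fun j => b j, c)
          (fun j => a' j, fun j => b' j, c') * Q i c' c).trans ?_
    exact Finset.prod_congr rfl fun i _ => (hK i).2.1 _ _ _ _
  · intro a c a' c'
    simp only [bprod, hG, ← Finset.prod_mul_distrib]
    have e1 : ∀ b : Fin n → B, ∑ b' : Fin n → B, ∏ i,
        (K i (fun j => a j, fun j => b j, fun j => c j)
          (fun j => a' j, fun j => b' j, fun j => c' j) *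
          Q i (fun j => b' j) (fun j => b j)) =
        ∏ i, ∑ b', K i (fun j => a j, fun j => b j, fun j => c j)
          (fun j => a' j, b', fun j => c' j) * Q i b' (fun j => b j) := by
      intro b
      exact sum_blk π fun i b' => K i (fun j => a j, fun j => b j, fun j => c j)
          (fun j => a' j, b', fun j => c' j) * Q i b' (fun j => b j)
    simp only [e1]
    refine (sum_blk π fun i b => ∑ b', K i (fun j => a j, b, fun j => c j)
          (fun j => a' j, b', fun j => c' j) * Q i b' b).trans ?_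
    exact Finset.prod_congr rfl fun i _ => (hK i).2.2 _ _ _ _

/-- Every operator is extendible relative to any filter if it is a multiple of the identity. -/
theorem ext_smul_one {X Y : Type} [Fintype X] [DecidableEq X] [Fintype Y] [DecidableEq Y] {r : ℝ}
    (hr : 0 ≤ r) {Q : Matrix Y Y ℂ} (hQ : Q.PosSemidef) (hQ0 : Q.trace ≠ 0) :
    ∃ K, IsExt ((r : ℂ) • (1 : Matrix (X × Y) (X × Y) ℂ)) Q K := by
  refine exists_ext (r := r) ?_ ?_ hQ hQ0
  · rw [sub_self]
    exact PosSemidef.zero
  · have h : ((2 * r : ℝ) : ℂ) • (1 : Matrix (X × Y) (X × Y) ℂ) - (r : ℂ) • 1 = (r : ℂ) • 1 := by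
      rw [← sub_smul]
      congr 1
      push_cast
      ring
    rw [h]
    exact PosSemidef.one.smul (by exact_mod_cast hr)

theorem piT_smul_one' (ι : Type) [Fintype ι] [DecidableEq ι] (a : ℝ) :
    piT (fun _ : ι => ((a : ℂ) • (1 : Matrix E E ℂ))) = ((a ^ Fintype.card ι : ℝ) : ℂ) • 1 := by
  ext e f
  simp only [piT, Matrix.smul_apply, Matrix.one_apply, smul_eq_mul]
  rw [Finset.prod_mul_distrib, Finset.prod_const, Finset.card_univ]
  push_cast
  congr 1
  by_cases h : e = f
  · subst h; simp only [↓reduceIte, Finset.prod_const_one]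
  · rw [if_neg h]
    obtain ⟨i, hi⟩ := Function.ne_iff.mp h
    exact Finset.prod_eq_zero (Finset.mem_univ i) (by simp [hi])

theorem col_inj' (ι : Type) : Function.Injective
    (fun (p : (ι → A) × (ι → B)) (i : ι) => (p.1 i, p.2 i)) := by
  intro p q h
  have h1 : ∀ i, (p.1 i, p.2 i) = (q.1 i, q.2 i) := fun i => congrFun h i
  exact Prod.ext (funext fun i => (Prod.mk.inj (h1 i)).1) (funext fun i => (Prod.mk.inj (h1 i)).2)

theorem cop_low (ι : Type) [Fintype ι] [DecidableEq ι] {ρ : Matrix (A × B) (A × B) ℂ} {a : ℝ}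
    (ha : 0 ≤ a) (h : (ρ - (a : ℂ) • 1).PosSemidef) :
    (cop ι ρ - ((a ^ Fintype.card ι : ℝ) : ℂ) • 1).PosSemidef := by
  have h1 := (Near.piT_sub_piT_posSemidef (ι := ι) (C := fun _ => ρ)
    (D := fun _ => (a : ℂ) • 1) (fun _ => PosSemidef.one.smul (by exact_mod_cast ha))
    (fun _ => h)).submatrix (fun (p : (ι → A) × (ι → B)) (i : ι) => (p.1 i, p.2 i))
  rw [piT_smul_one'] at h1
  have h2 : (piT (fun _ : ι => ρ) - ((a ^ Fintype.card ι : ℝ) : ℂ) • 1).submatrix
      (fun (p : (ι → A) × (ι → B)) (i : ι) => (p.1 i, p.2 i)) (fun p i => (p.1 i, p.2 i)) =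
      cop ι ρ - ((a ^ Fintype.card ι : ℝ) : ℂ) • 1 := by
    ext p q
    simp only [submatrix_apply, Matrix.sub_apply, Matrix.smul_apply, Matrix.one_apply,
      (col_inj' ι).eq_iff, cop, piT]
  rwa [h2] at h1

theorem cop_high (ι : Type) [Fintype ι] [DecidableEq ι] {ρ : Matrix (A × B) (A × B) ℂ} {b : ℝ}
    (hρ : ρ.PosSemidef) (h : ((b : ℂ) • 1 - ρ).PosSemidef) :
    (((b ^ Fintype.card ι : ℝ) : ℂ) • 1 - cop ι ρ).PosSemidef := by
  have h1 := (Near.piT_sub_piT_posSemidef (ι := ι) (C := fun _ => (b : ℂ) • 1)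
    (D := fun _ => ρ) (fun _ => hρ)
    (fun _ => h)).submatrix (fun (p : (ι → A) × (ι → B)) (i : ι) => (p.1 i, p.2 i))
  rw [piT_smul_one'] at h1
  have h2 : (((b ^ Fintype.card ι : ℝ) : ℂ) • 1 - piT (fun _ : ι => ρ)).submatrix
      (fun (p : (ι → A) × (ι → B)) (i : ι) => (p.1 i, p.2 i)) (fun p i => (p.1 i, p.2 i)) =
      ((b ^ Fintype.card ι : ℝ) : ℂ) • 1 - cop ι ρ := by
    ext p q
    simp only [submatrix_apply, Matrix.sub_apply, Matrix.smul_apply, Matrix.one_apply,
      (col_inj' ι).eq_iff, cop, piT]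
  rwa [h2] at h1

/-- Extensions relative to every filter that is almost a product of filters on blocks. -/
theorem ext_or_zero {n N M : ℕ} {c : ℝ} {ρ : Matrix (A × B) (A × B) ℂ} {lo hi : ℝ}
    (hlo : 0 < lo) (hlohi : lo ≤ hi) (hc : 0 < c) (h1 : (ρ - (lo : ℂ) • 1).PosSemidef)
    (h2 : ((hi : ℂ) • 1 - ρ).PosSemidef)
    (hN : hi ^ N ≤ 2 * lo ^ N) {G : Matrix (Fin n → B) (Fin n → B) ℂ} (hG0 : G.PosSemidef)
    (hG : NearBlockProd N M c G) :
    G = 0 ∨ ∃ L, IsExtK (c * (hi / lo) ^ M) (cop (Fin n) ρ) G L := by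
  have hρ : ρ.PosSemidef := by
    have h4 : ρ = (ρ - (lo : ℂ) • 1) + (lo : ℂ) • (1 : Matrix _ _ ℂ) := by abel
    rw [h4]
    exact h1.add (PosSemidef.one.smul (by exact_mod_cast hlo.le))
  have hhi : 0 < hi := hlo.trans_le hlohi
  obtain ⟨P, ⟨m, π, Q, hc0, hcN, hQ, hP⟩, hGP, hPG⟩ := hG
  by_cases h0 : ∃ i, (Q i).trace = 0
  · left
    obtain ⟨i, hi⟩ := h0
    have hQi : Q i = 0 := (hQ i).trace_eq_zero_iff.mp hi
    have hP0 : P = 0 := by
      ext p q
      rw [hP, Matrix.zero_apply]
      exact Finset.prod_eq_zero (Finset.mem_univ i) (by rw [hQi, Matrix.zero_apply])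
    rw [hP0, smul_zero, zero_sub] at hPG
    have h3 := hPG.trace_nonneg
    have h4 := hG0.trace_nonneg
    rw [trace_neg] at h3
    exact hG0.trace_eq_zero_iff.mp (le_antisymm (neg_nonneg.mp h3) h4)
  · right
    push Not at h0
    -- the comparison operator
    obtain ⟨C, hC⟩ : ∃ C : ∀ i, Matrix (({j // π j = i} → A) × ({j // π j = i} → B))
      (({j // π j = i} → A) × ({j // π j = i} → B)) ℂ, C = fun i => cop {j // π j = i} ρ :=
      ⟨_, rfl⟩
    obtain ⟨s, hs⟩ : ∃ s, s = Fintype.card {j // π j = 0} := ⟨_, rfl⟩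
    obtain ⟨O, hO⟩ : ∃ O : Matrix (({j // π j = 0} → A) × ({j // π j = 0} → B))
      (({j // π j = 0} → A) × ({j // π j = 0} → B)) ℂ, O = 1 := ⟨_, rfl⟩
    have hR : cop (Fin n) ρ = bprod π (Function.update C 0 (C 0)) := by
      rw [Function.update_eq_self, hC]
      exact cop_eq_bprod π ρ
    have hpos : ∀ i, (C i).PosSemidef := by
      intro i
      rw [hC]
      have h3 := cop_low {j // π j = i} hlo.le h1
      have h4 := h3.add ((PosSemidef.one (n := ({j // π j = i} → A) ×
        ({j // π j = i} → B)) (R := ℂ)).smul (Complex.zero_le_real.mpr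
          (pow_nonneg hlo.le (Fintype.card {j // π j = i}))))
      rwa [sub_add_cancel] at h4
    have hupd : ∀ W, W.PosSemidef → (bprod π (Function.update C 0 W)).PosSemidef := by
      intro W hW
      refine bprod_posSemidef π fun i => ?_
      by_cases hi0 : i = 0
      · subst hi0
        rw [Function.update_self]
        exact hW
      · rw [Function.update_of_ne hi0]
        exact hpos i
    obtain ⟨S, hS⟩ : ∃ S, S = bprod π (Function.update C 0 (((lo ^ s : ℝ) : ℂ) • O)) := ⟨_, rfl⟩
    have hRS : (cop (Fin n) ρ - S).PosSemidef := by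
      have h3 := cop_low {j // π j = 0} hlo.le h1
      rw [← hs, ← hO] at h3
      have h4 := hupd ((1 : ℂ) • C 0 - (1 : ℂ) • (((lo ^ s : ℝ) : ℂ) • O)) (by
        rw [one_smul, one_smul, hC]
        exact h3)
      rw [bprod_update, one_smul, one_smul, ← hR, ← hS] at h4
      exact h4
    have hSR : ((((hi / lo) ^ M : ℝ) : ℂ) • S - cop (Fin n) ρ).PosSemidef := by
      have h3 := cop_high {j // π j = 0} hρ h2
      rw [← hs, ← hO] at h3
      have h5 : hi ^ s ≤ (hi / lo) ^ M * lo ^ s := by
        have h6 : 1 ≤ hi / lo := (one_le_div hlo).mpr hlohi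
        calc hi ^ s = (hi / lo) ^ s * lo ^ s := by
              rw [div_pow, div_mul_cancel₀ _ (pow_pos hlo s).ne']
          _ ≤ _ := mul_le_mul_of_nonneg_right
              (pow_le_pow_right₀ h6 (hs ▸ hc0)) (pow_nonneg hlo.le s)
      have h4 := hupd ((((hi / lo) ^ M : ℝ) : ℂ) • (((lo ^ s : ℝ) : ℂ) • O) - (1 : ℂ) • C 0) (by
        rw [one_smul, smul_smul, ← Complex.ofReal_mul]
        have h7 := h3.add ((PosSemidef.one (n := ({j // π j = 0} → A) ×
          ({j // π j = 0} → B)) (R := ℂ)).smul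
          (Complex.zero_le_real.mpr (sub_nonneg.mpr h5)))
        rw [← hO, Complex.ofReal_sub, sub_smul] at h7
        have h8 : ((hi ^ s : ℝ) : ℂ) • O - cop {j // π j = 0} ρ +
            ((((hi / lo) ^ M * lo ^ s : ℝ) : ℂ) • O - ((hi ^ s : ℝ) : ℂ) • O) =
            (((hi / lo) ^ M * lo ^ s : ℝ) : ℂ) • O - C 0 := by
          rw [hC]
          abel
        rwa [h8] at h7)
      rw [bprod_update, one_smul, ← hR, ← hS] at h4
      exact h4
    have hext : ∃ K, IsExt S P K := by
      rw [hS]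
      refine ext_blocks π (fun i => ?_) hP
      by_cases hi0 : i = 0
      · subst hi0
        rw [Function.update_self, hO]
        exact ext_smul_one (pow_nonneg hlo.le s) (hQ 0) (h0 0)
      · rw [Function.update_of_ne hi0, hC]
        have hpow : hi ^ Fintype.card {j // π j = i} ≤ 2 * lo ^ Fintype.card {j // π j = i} := by
          obtain ⟨r, hr⟩ := Nat.exists_eq_add_of_le (hcN i hi0)
          rw [hr, pow_add, pow_add] at hN
          have h3 : lo ^ r ≤ hi ^ r := pow_le_pow_left₀ hlo.le hlohi r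
          have h4 : 0 < lo ^ r := pow_pos hlo r
          have h5 : 0 < hi ^ Fintype.card {j // π j = i} := pow_pos hhi _
          by_contra hcon
          push Not at hcon
          have h6 : 2 * (lo ^ Fintype.card {j // π j = i} * lo ^ r) <
              hi ^ Fintype.card {j // π j = i} * hi ^ r := by
            calc 2 * (lo ^ Fintype.card {j // π j = i} * lo ^ r)
                = (2 * lo ^ Fintype.card {j // π j = i}) * lo ^ r := by ring
              _ < hi ^ Fintype.card {j // π j = i} * lo ^ r := mul_lt_mul_of_pos_right hcon h4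
              _ ≤ _ := mul_le_mul_of_nonneg_left h3 h5.le
          linarith
        refine exists_ext (cop_low {j // π j = i} hlo.le h1) ?_ (hQ i) (h0 i)
        have h7 := cop_high {j // π j = i} hρ h2
        have h8 : (((2 * lo ^ Fintype.card {j // π j = i} : ℝ) : ℂ) • 1 -
            cop {j // π j = i} ρ) = (((hi ^ Fintype.card {j // π j = i} : ℝ) : ℂ) • 1 -
            cop {j // π j = i} ρ) + (((2 * lo ^ Fintype.card {j // π j = i} -
              hi ^ Fintype.card {j // π j = i} : ℝ) : ℂ) • (1 : Matrix _ _ ℂ)) := by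
          rw [Complex.ofReal_sub, sub_smul]
          abel
        rw [h8]
        exact h7.add (PosSemidef.one.smul (by exact_mod_cast sub_nonneg.mpr hpow))
    obtain ⟨K, hK⟩ := hext
    exact ⟨_, hK.extK (pow_nonneg (div_nonneg hhi.le hlo.le) M) hc hRS hSR hGP hPG⟩

/-- States close to the maximally mixed state: no key if one party only filters in blocks. -/
theorem near_filters {ρ : Matrix (A × B) (A × B) ℂ} {lo hi c : ℝ} {N M : ℕ}
    (htr : ρ.trace = 1) (hlo : 0 < lo) (h1 : (ρ - (lo : ℂ) • 1).PosSemidef)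
    (h2 : ((hi : ℂ) • 1 - ρ).PosSemidef) (hN : hi ^ N ≤ 2 * lo ^ N) (hc : 0 < c)
    (Ψ : Matrix (A × B) E ℂ) (hΨ : Ψ * Ψᴴ = ρ) (n ℓ : ℕ) (T : Type)
    [Fintype T] (f : T → (Fin ℓ → Bool) → Matrix (Fin n → A) (Fin n → A) ℂ)
    (g : T → (Fin ℓ → Bool) → Matrix (Fin n → B) (Fin n → B) ℂ) (ε : ℝ)
    (hL : LOCC (Fin ℓ → Bool) (Fin n → A) (Fin n → B) T f g)
    (hprod : ∀ t, NearBlockProd N M c (∑ k, f t k) ∨ NearBlockProd N M c (∑ k, g t k))
    (herr : KeyError f g (copies n Ψ) ε) :
    1 - ε ≤ c * (hi / lo) ^ M * ((2 ^ ℓ)⁻¹ + ε) := by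
  have hne : Nonempty (A × B) := by
    by_contra hcon
    rw [not_nonempty_iff] at hcon
    rw [Matrix.trace, Finset.univ_eq_empty, Finset.sum_empty] at htr
    exact zero_ne_one htr
  have hlohi : lo ≤ hi := by
    obtain ⟨p⟩ := hne
    have h3 := (h1.add h2).diag_nonneg (i := p)
    have h4 : ((ρ - (lo : ℂ) • 1) + ((hi : ℂ) • 1 - ρ)) p p = ((hi - lo : ℝ) : ℂ) := by
      simp only [Matrix.add_apply, Matrix.sub_apply, Matrix.smul_apply, Matrix.one_apply_eq,
        smul_eq_mul]
      push_cast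
      ring
    rw [h4, Complex.zero_le_real] at h3
    linarith
  have hW : copies n Ψ * (copies n Ψ)ᴴ = cop (Fin n) ρ := by
    rw [copies_mul, hΨ]
    rfl
  have hlown := cop_low (Fin n) hlo.le h1
  have hunit : ∃ W', (copies n Ψ * (copies n Ψ)ᴴ) * W' = 1 := by
    rw [hW]
    have h3 : (cop (Fin n) ρ).PosDef := by
      have h4 : cop (Fin n) ρ = ((lo ^ Fintype.card (Fin n) : ℝ) : ℂ) •
          (1 : Matrix ((Fin n → A) × (Fin n → B)) ((Fin n → A) × (Fin n → B)) ℂ) +
            (cop (Fin n) ρ - ((lo ^ Fintype.card (Fin n) : ℝ) : ℂ) • 1) := by abel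
      rw [h4]
      exact (PosDef.one.smul (by exact_mod_cast pow_pos hlo _)).add_posSemidef hlown
    exact ⟨(cop (Fin n) ρ)⁻¹, Matrix.mul_nonsing_inv _
      ((Matrix.isUnit_iff_isUnit_det _).mp h3.isUnit)⟩
  obtain ⟨W', hW'⟩ := hunit
  obtain ⟨hf, hg⟩ := Lim.locc_psd hL
  -- exchange of the parties
  have hρ' : (ρ.submatrix (Prod.swap : B × A → A × B) Prod.swap - (lo : ℂ) • 1).PosSemidef := by
    have h3 := h1.submatrix (Prod.swap : B × A → A × B)
    have h4 : (ρ - (lo : ℂ) • 1).submatrix (Prod.swap : B × A → A × B) Prod.swap =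
        ρ.submatrix Prod.swap Prod.swap - (lo : ℂ) • 1 := by
      ext p q
      simp only [submatrix_apply, Matrix.sub_apply, Matrix.smul_apply, Matrix.one_apply,
        Prod.swap_injective.eq_iff]
    rwa [h4] at h3
  have hρ'' : ((hi : ℂ) • 1 - ρ.submatrix (Prod.swap : B × A → A × B)
      Prod.swap).PosSemidef := by
    have h3 := h2.submatrix (Prod.swap : B × A → A × B)
    have h4 : ((hi : ℂ) • 1 - ρ).submatrix (Prod.swap : B × A → A × B) Prod.swap =
        (hi : ℂ) • 1 - ρ.submatrix Prod.swap Prod.swap := by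
      ext p q
      simp only [submatrix_apply, Matrix.sub_apply, Matrix.smul_apply, Matrix.one_apply,
        Prod.swap_injective.eq_iff]
    rwa [h4] at h3
  have hκ : 0 ≤ c * (hi / lo) ^ M :=
    mul_nonneg hc.le (pow_nonneg (div_nonneg (hlo.trans_le hlohi).le hlo.le) M)
  have hkey := key_bound (copies n Ψ) hW' f g hf hg hκ (fun t => ?_) herr
  · have hcard : (Fintype.card (Fin ℓ → Bool) : ℝ) = 2 ^ ℓ := by simp
    rwa [hcard] at hkey
  · rcases hprod t with h | h
    · left
      rcases ext_or_zero hlo hlohi hc hρ' hρ'' hN (posSemidef_sum _ fun k _ => hf t k) h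
        with h0 | h0
      · exact Or.inl h0
      · right
        rw [hW]
        exact h0
    · right
      rw [hW]
      exact ext_or_zero hlo hlohi hc h1 h2 hN (posSemidef_sum _ fun k _ => hg t k) h

end BF

end Vale.Agent.P372
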