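import Vale.Agent.P372.Lim.Defs

open Matrix Kronecker
open scoped ComplexOrder

namespace Vale.Agent.P372

/-- The operator `P` on `n` copies is a product of positive operators on the blocks
`{j | π j = i}` of a partition of the `n` copies; one block (`i = 0`) has at most `M` copies, the
other ones at most `N` copies. -/
def BlockProd {A : Type} {n : ℕ} (N M : ℕ) (P : Matrix (Fin n → A) (Fin n → A) ℂ) : Prop :=
  ∃ (m : ℕ) (π : Fin n → Fin (m + 1))
    (Q : ∀ i, Matrix ({j // π j = i} → A) ({j // π j = i} → A) ℂ),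
    Fintype.card {j // π j = 0} ≤ M ∧ (∀ i, i ≠ 0 → Fintype.card {j // π j = i} ≤ N) ∧
      (∀ i, (Q i).PosSemidef) ∧ ∀ p q, P p q = ∏ i, Q i (fun j => p j) (fun j => q j)

/-- The operator `G` on `n` copies is a product of positive operators on blocks up to the factor
`c`: `P ≤ G ≤ c P` for such a product `P`. -/
def NearBlockProd {A : Type} {n : ℕ} (N M : ℕ) (c : ℝ) (G : Matrix (Fin n → A) (Fin n → A) ℂ) :
    Prop :=
  ∃ P, BlockProd N M P ∧ (G - P).PosSemidef ∧ ((c : ℂ) • P - G).PosSemidef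

/-- The total effect `F` of Alice or the total effect `G` of Bob is at most a product `P` of positive
operators on blocks of at most `N` copies, and if it is replaced by `P` then the probability
`tr (F ⊗ G) ρ^{⊗ n}` becomes at most `γ`. -/
def Dominated {A B : Type} [Fintype A] [Fintype B] {n : ℕ} (N : ℕ)
    (ρ : Matrix (A × B) (A × B) ℂ) (F : Matrix (Fin n → A) (Fin n → A) ℂ)
    (G : Matrix (Fin n → B) (Fin n → B) ℂ) (γ : ℝ) : Prop :=
  (∃ P, BlockProd N 0 P ∧ (P - F).PosSemidef ∧ ((P ⊗ₖ G) * tpow n ρ).trace.re ≤ γ) ∨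
    ∃ P, BlockProd N 0 P ∧ (P - G).PosSemidef ∧ ((F ⊗ₖ P) * tpow n ρ).trace.re ≤ γ

end Vale.Agent.P372
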