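import Vale.Agent.P372.Official

/-! P372, lemma (E): every decomposition of the reduced state of the two parties into positive
parts is realised by a measurement of Eve on her part of the purification. -/

open Matrix
open scoped ComplexOrder Kronecker MatrixOrder
open scoped Matrix.Norms.L2Operator

namespace Vale.Agent.P372.BF

/-- A pseudo-inverse of a positive semidefinite matrix. -/
theorem exists_pinv {m : Type*} [Fintype m] [DecidableEq m] {G : Matrix m m ℂ}
    (hG : G.PosSemidef) :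
    ∃ H : Matrix m m ℂ, Hᴴ = H ∧ G * H * G = G ∧ H * G * H = H := by
  have hH := hG.1
  set U : Matrix m m ℂ := (hH.eigenvectorUnitary : Matrix m m ℂ) with hU
  have hUU : U * Uᴴ = 1 := by
    have := Unitary.mul_star_self_of_mem hH.eigenvectorUnitary.2
    simpa [hU, star_eq_conjTranspose] using this
  have hUU' : Uᴴ * U = 1 := by
    have := Unitary.star_mul_self_of_mem hH.eigenvectorUnitary.2
    simpa [hU, star_eq_conjTranspose] using this
  set d : m → ℂ := fun i => ((hH.eigenvalues i : ℝ) : ℂ) with hd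
  have hsp : G = U * diagonal d * Uᴴ := by
    conv_lhs => rw [hH.spectral_theorem]
    rw [Unitary.conjStarAlgAut_apply]
    rfl
  refine ⟨U * diagonal (fun i => (d i)⁻¹) * Uᴴ, ?_, ?_, ?_⟩
  · rw [conjTranspose_mul, conjTranspose_mul, conjTranspose_conjTranspose,
      diagonal_conjTranspose, Matrix.mul_assoc]
    congr 3
    ext i
    simp [hd]
  · rw [hsp]
    have : U * diagonal d * Uᴴ * (U * diagonal (fun i => (d i)⁻¹) * Uᴴ) * (U * diagonal d * Uᴴ)
        = U * (diagonal d * (Uᴴ * U) * diagonal (fun i => (d i)⁻¹) * (Uᴴ * U) * diagonal d) * Uᴴ := by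
      simp only [Matrix.mul_assoc]
    rw [this, hUU', Matrix.mul_one, Matrix.mul_one, diagonal_mul_diagonal, diagonal_mul_diagonal]
    congr 3
    ext i
    by_cases h : d i = 0
    · simp [h]
    · field_simp
  · rw [hsp]
    have : U * diagonal (fun i => (d i)⁻¹) * Uᴴ * (U * diagonal d * Uᴴ) *
        (U * diagonal (fun i => (d i)⁻¹) * Uᴴ)
        = U * (diagonal (fun i => (d i)⁻¹) * (Uᴴ * U) * diagonal d * (Uᴴ * U) *
          diagonal (fun i => (d i)⁻¹)) * Uᴴ := by
      simp only [Matrix.mul_assoc]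
    rw [this, hUU', Matrix.mul_one, Matrix.mul_one, diagonal_mul_diagonal, diagonal_mul_diagonal]
    congr 3
    ext i
    by_cases h : d i = 0
    · simp [h]
    · field_simp

/-- positive parts of a sum vanish where the sum vanishes. -/
theorem part_mul_eq_zero {m K : Type*} [Fintype m] [DecidableEq m] [Fintype K]
    {G R : Matrix m m ℂ} {M : K → Matrix m m ℂ} (hM : ∀ k, (M k).PosSemidef)
    (hs : ∑ k, M k = G) (hR : G * R = 0) (k : K) : M k * R = 0 := by
  classical
  have h0 : ∑ k, (Rᴴ * M k * R) = 0 := by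
    rw [← Matrix.sum_mul, ← Matrix.mul_sum, hs, Matrix.mul_assoc, hR, Matrix.mul_zero]
  have hp : ∀ k, (Rᴴ * M k * R).PosSemidef := fun k => (hM k).conjTranspose_mul_mul_same R
  have ht : ∑ k, (Rᴴ * M k * R).trace = 0 := by
    rw [← trace_sum, h0, trace_zero]
  have hk : (Rᴴ * M k * R).trace = 0 := by
    have := (Finset.sum_eq_zero_iff_of_nonneg (fun i _ => (hp i).trace_nonneg)).1 ht k
      (Finset.mem_univ k)
    exact this
  have hz : Rᴴ * M k * R = 0 := (hp k).trace_eq_zero_iff.1 hk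
  obtain ⟨L, hL⟩ : ∃ L : Matrix m m ℂ, M k = Lᴴ * L := by
    obtain ⟨L, hL⟩ := CStarAlgebra.nonneg_iff_eq_star_mul_self.mp (hM k).nonneg
    exact ⟨L, hL⟩
  have h1 : (L * R)ᴴ * (L * R) = 0 := by
    rw [conjTranspose_mul, ← hz, hL]; simp only [Matrix.mul_assoc]
  have h2 : L * R = 0 := conjTranspose_mul_self_eq_zero.1 h1
  rw [hL, Matrix.mul_assoc, h2, Matrix.mul_zero]

variable {A B E K : Type} [Fintype A] [DecidableEq A] [Fintype B] [DecidableEq B]
  [Fintype E] [DecidableEq E] [Fintype K]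

omit [DecidableEq A] [DecidableEq B] [Fintype E] [DecidableEq E] in
/-- Eve's operator as a matrix product. -/
theorem eve_eq (Ψ : Matrix (A × B) E ℂ) (M : Matrix A A ℂ) (N : Matrix B B ℂ) :
    eve Ψ M N = (Ψᴴ * (M ⊗ₖ N) * Ψ)ᵀ := by
  ext e e'
  change (∑ p : A × B, ∑ q : A × B, M q.1 p.1 * N q.2 p.2 * (Ψ p e * star (Ψ q e'))) = _
  simp only [transpose_apply, mul_apply, conjTranspose_apply, kroneckerMap_apply,
    Finset.sum_mul]
  refine Finset.sum_congr rfl fun p _ => Finset.sum_congr rfl fun q _ => ?_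
  ring

/-- **Lemma (E).** -/
theorem exists_eve_povm (Ψ : Matrix (A × B) E ℂ) (M : K → Matrix (A × B) (A × B) ℂ)
    (hM : ∀ k, (M k).PosSemidef) (hs : ∑ k, M k = Ψ * Ψᴴ) :
    ∃ Z : K → Matrix E E ℂ, (∀ k, (Z k).PosSemidef) ∧ (1 - ∑ k, Z k).PosSemidef ∧
      ∀ (X : Matrix A A ℂ) (Y : Matrix B B ℂ) (k : K),
        (Z k * eve Ψ X Y).trace = ((X ⊗ₖ Y) * M k).trace := by
  classical
  have hG : (Ψ * Ψᴴ).PosSemidef := posSemidef_self_mul_conjTranspose Ψ
  obtain ⟨H, hH, h1, h2⟩ := exists_pinv hG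
  set G := Ψ * Ψᴴ with hGdef
  have hGG : Gᴴ = G := hG.1
  -- `W k`
  let W : K → Matrix E E ℂ := fun k => Ψᴴ * H * M k * H * Ψ
  have hW : ∀ k, (W k).PosSemidef := by
    intro k
    have := (hM k).conjTranspose_mul_mul_same (H * Ψ)
    rw [conjTranspose_mul, hH] at this
    simpa only [W, Matrix.mul_assoc] using this
  have hMk : ∀ k, M k * (1 - H * G) = 0 := by
    intro k
    refine part_mul_eq_zero hM hs ?_ k
    rw [Matrix.mul_sub, Matrix.mul_one, ← Matrix.mul_assoc, h1, sub_self]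
  have hMk1 : ∀ k, M k * (H * G) = M k := by
    intro k
    have := hMk k
    rw [Matrix.mul_sub, Matrix.mul_one, sub_eq_zero] at this
    exact this.symm
  have hMk2 : ∀ k, (G * H) * M k = M k := by
    intro k
    have := congrArg conjTranspose (hMk1 k)
    rw [conjTranspose_mul, conjTranspose_mul, hH, hGG, (hM k).1] at this
    exact this
  have hΨ : ∀ k, Ψ * W k * Ψᴴ = M k := by
    intro k
    have : Ψ * W k * Ψᴴ = (G * H) * (M k * (H * G)) := by
      simp only [W, hGdef, Matrix.mul_assoc]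
    rw [this, hMk1, hMk2]
  have hsum : ∑ k, W k = Ψᴴ * H * Ψ := by
    have : ∑ k, W k = Ψᴴ * H * (∑ k, M k) * H * Ψ := by
      rw [Matrix.mul_sum, Matrix.sum_mul, Matrix.sum_mul]
    rw [this, hs]
    have : Ψᴴ * H * G * H * Ψ = Ψᴴ * (H * G * H) * Ψ := by simp only [Matrix.mul_assoc]
    rw [this, h2]
  set Q : Matrix E E ℂ := Ψᴴ * H * Ψ with hQ
  have hQh : Qᴴ = Q := by
    rw [hQ, conjTranspose_mul, conjTranspose_mul, hH, conjTranspose_conjTranspose,
      Matrix.mul_assoc]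
  have hQQ : Q * Q = Q := by
    have : Q * Q = Ψᴴ * (H * G * H) * Ψ := by
      simp only [hQ, hGdef, Matrix.mul_assoc]
    rw [this, h2]
  have hQ1 : (1 - Q).PosSemidef := by
    have e : 1 - Q = (1 - Q)ᴴ * (1 - Q) := by
      rw [conjTranspose_sub, conjTranspose_one, hQh, Matrix.mul_sub, Matrix.mul_one,
        Matrix.sub_mul, Matrix.one_mul, hQQ, sub_self, sub_zero]
    rw [e]
    exact posSemidef_conjTranspose_mul_self _
  refine ⟨fun k => (W k)ᵀ, fun k => (hW k).transpose, ?_, ?_⟩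
  · have : (1 - ∑ k, (W k)ᵀ) = (1 - Q)ᵀ := by
      rw [transpose_sub, transpose_one, ← hsum, transpose_sum]
    rw [this]
    exact hQ1.transpose
  · intro X Y k
    rw [eve_eq, ← transpose_mul, trace_transpose]
    calc ((Ψᴴ * (X ⊗ₖ Y) * Ψ) * W k).trace = (Ψᴴ * ((X ⊗ₖ Y) * Ψ * W k)).trace := by
          simp only [Matrix.mul_assoc]
      _ = (((X ⊗ₖ Y) * Ψ * W k) * Ψᴴ).trace := trace_mul_comm _ _
      _ = ((X ⊗ₖ Y) * (Ψ * W k * Ψᴴ)).trace := by simp only [Matrix.mul_assoc]
      _ = _ := by rw [hΨ]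

end Vale.Agent.P372.BF
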