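import Vale.Agent.P372.Lim.Count

open Matrix Kronecker
open scoped ComplexOrder MatrixOrder

set_option linter.unusedSectionVars false
set_option linter.unnecessarySeqFocus false

namespace Vale.Agent.P372

namespace BF

variable {A B X Y : Type} [Fintype A] [DecidableEq A] [Fintype B] [DecidableEq B]
  [Fintype X] [DecidableEq X] [Fintype Y] [DecidableEq Y]

/-- Contract the second system of `M` with `Q`. -/
def ctr (M : Matrix (X × Y) (X × Y) ℂ) (Q : Matrix Y Y ℂ) : Matrix X X ℂ :=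
  fun x x' => ∑ y, ∑ y', M (x, y) (x', y') * Q y' y

theorem ctr_posSemidef {M : Matrix (X × Y) (X × Y) ℂ} {Q : Matrix Y Y ℂ} (hM : M.PosSemidef)
    (hQ : Q.PosSemidef) : (ctr M Q).PosSemidef := by
  obtain ⟨C, rfl⟩ := exists_eq_conjTranspose_mul_self hQ
  let V : Y → Matrix (X × Y) X ℂ := fun c p x => if p.1 = x then star (C c p.2) else 0
  have h : ctr M (Cᴴ * C) = ∑ c, (V c)ᴴ * M * V c := by
    ext x x'
    simp only [ctr, Matrix.sum_apply, Matrix.mul_apply, conjTranspose_apply]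
    have h1 : ∀ c, ∑ p : X × Y, (∑ q : X × Y, star (V c q x) * M q p) * V c p x' =
        ∑ y, ∑ y', M (x, y) (x', y') * (star (C c y') * C c y) := by
      intro c
      rw [Fintype.sum_prod_type]
      rw [Finset.sum_eq_single x']
      · rw [Finset.sum_comm]
        refine Finset.sum_congr rfl fun y' _ => ?_
        simp only [V, if_true]
        rw [Fintype.sum_prod_type, Finset.sum_eq_single x]
        · rw [Finset.sum_mul]
          refine Finset.sum_congr rfl fun y _ => ?_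
          simp only [if_true, star_star]
          ring
        · intro x2 _ hx2
          refine Finset.sum_eq_zero fun y _ => ?_
          rw [if_neg hx2, star_zero, zero_mul]
        · simp
      · intro x2 _ hx2
        refine Finset.sum_eq_zero fun y _ => ?_
        simp only [V]
        rw [if_neg hx2, mul_zero]
      · simp
    simp only [h1]
    conv_rhs => rw [Finset.sum_comm]
    refine Finset.sum_congr rfl fun y _ => ?_
    conv_rhs => rw [Finset.sum_comm]
    refine Finset.sum_congr rfl fun y' _ => ?_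
    rw [Finset.mul_sum]
  rw [h]
  exact posSemidef_sum _ fun c _ => hM.conjTranspose_mul_mul_same _

theorem ctr_sum {ι : Type} (s : Finset ι) (M : Matrix (X × Y) (X × Y) ℂ) (Q : ι → Matrix Y Y ℂ) :
    ∑ i ∈ s, ctr M (Q i) = ctr M (∑ i ∈ s, Q i) := by
  ext x x'
  simp only [ctr, Matrix.sum_apply, Finset.mul_sum]
  rw [Finset.sum_comm]
  refine Finset.sum_congr rfl fun y _ => ?_
  rw [Finset.sum_comm]

/-- The operator `M` on a subsystem, the identity on the rest. -/
theorem ext_posSemidef {Z : Type} [Fintype Z] {M : Matrix X X ℂ} (hM : M.PosSemidef) (f : Z → X)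
    (g : Z → Y) :
    (Matrix.of fun p q : Z => M (f p) (f q) * if g p = g q then 1 else 0).PosSemidef := by
  have h : (Matrix.of fun p q : Z => M (f p) (f q) * if g p = g q then 1 else 0) =
      (M ⊗ₖ (1 : Matrix Y Y ℂ)).submatrix (fun p => (f p, g p)) (fun p => (f p, g p)) := by
    ext p q
    simp only [Matrix.of_apply, Matrix.submatrix_apply, kroneckerMap_apply, Matrix.one_apply]
  rw [h]
  exact (hM.kronecker PosSemidef.one).submatrix _

/-- `K` is an extension of `R` to a second copy of Bob's system, relative to the filter `Q`. -/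
def IsExt (R : Matrix (A × B) (A × B) ℂ) (Q : Matrix B B ℂ)
    (K : Matrix (A × B × B) (A × B × B) ℂ) : Prop :=
  K.PosSemidef ∧
    (∀ a b a' b', ∑ c, ∑ c', K (a, b, c) (a', b', c') * Q c' c = R (a, b) (a', b')) ∧
    ∀ a c a' c', ∑ b, ∑ b', K (a, b, c) (a', b', c') * Q b' b = R (a, c) (a', c')

theorem exists_ext_one {R : Matrix (A × B) (A × B) ℂ} {r : ℝ} (h1 : (R - (r : ℂ) • 1).PosSemidef)
    (h2 : ((2 * r : ℝ) : ℂ) • 1 - R |>.PosSemidef) {Q : Matrix B B ℂ} (hQ : Q.PosSemidef)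
    (hQ1 : Q.trace = 1) : ∃ K, IsExt R Q K := by
  have hX := ctr_posSemidef h2 hQ
  obtain ⟨D, hD⟩ : ∃ D, D = R - (r : ℂ) • 1 := ⟨_, rfl⟩
  rw [← hD] at h1
  have hR : ∀ p q, R p q = D p q + (r : ℂ) * if p = q then 1 else 0 := by
    intro p q
    rw [hD]
    simp only [Matrix.sub_apply, Matrix.smul_apply, Matrix.one_apply, smul_eq_mul]
    ring
  have hQt : ∑ c, Q c c = 1 := hQ1
  -- the values of the contraction
  have hXv : ∀ a a', ctr (((2 * r : ℝ) : ℂ) • 1 - R) Q a a' =
      (r : ℂ) * (if a = a' then 1 else 0) - ∑ c, ∑ c', D (a, c) (a', c') * Q c' c := by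
    intro a a'
    have e : ∀ c c', (((2 * r : ℝ) : ℂ) • (1 : Matrix (A × B) (A × B) ℂ) - R) (a, c) (a', c') *
        Q c' c = (r : ℂ) * (if a = a' then 1 else 0) * (if c = c' then Q c' c else 0) -
          D (a, c) (a', c') * Q c' c := by
      intro c c'
      simp only [Matrix.sub_apply, Matrix.smul_apply, Matrix.one_apply, smul_eq_mul, hR,
        Prod.mk.injEq]
      push_cast
      by_cases h3 : a = a' <;> by_cases h4 : c = c' <;> simp [h3, h4] <;> ring
    simp only [ctr, e, Finset.sum_sub_distrib]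
    congr 1
    simp only [← Finset.mul_sum]
    have : ∑ c, ∑ c', (if c = c' then Q c' c else 0) = 1 := by
      simp [hQt]
    rw [this, mul_one]
  obtain ⟨V, hV⟩ : ∃ V, V = ctr (((2 * r : ℝ) : ℂ) • 1 - R) Q := ⟨_, rfl⟩
  rw [← hV] at hX hXv
  have p1 := ext_posSemidef (Z := A × B × B) (Y := B × B) hX (fun p => p.1) (fun p => p.2)
  have p2 := ext_posSemidef (Z := A × B × B) (Y := B) h1 (fun p => (p.1, p.2.1)) (fun p => p.2.2)
  have p3 := ext_posSemidef (Z := A × B × B) (Y := B) h1 (fun p => (p.1, p.2.2)) (fun p => p.2.1)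
  refine ⟨_, (p1.add p2).add p3, ?_, ?_⟩
  · intro a b a' b'
    have e : ∀ c c', (((Matrix.of fun p q : A × B × B => V p.1 q.1 * if p.2 = q.2 then 1 else 0) +
        (Matrix.of fun p q : A × B × B => D (p.1, p.2.1) (q.1, q.2.1) *
          if p.2.2 = q.2.2 then 1 else 0)) +
        (Matrix.of fun p q : A × B × B => D (p.1, p.2.2) (q.1, q.2.2) *
          if p.2.1 = q.2.1 then 1 else 0)) (a, b, c) (a', b', c') * Q c' c =
        (V a a' * (if b = b' then 1 else 0) + D (a, b) (a', b')) *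
          (if c = c' then Q c' c else 0) +
          (if b = b' then 1 else 0) * (D (a, c) (a', c') * Q c' c) := by
      intro c c'
      simp only [Matrix.add_apply, Matrix.of_apply, Prod.mk.injEq]
      by_cases h3 : b = b' <;> by_cases h4 : c = c' <;> simp [h3, h4] <;> ring
    simp only [e, Finset.sum_add_distrib, ← Finset.mul_sum]
    have e2 : ∑ c, ∑ c', (if c = c' then Q c' c else 0) = 1 := by
      simp [hQt]
    rw [e2, hXv, hR]
    by_cases h3 : a = a' <;> by_cases h4 : b = b' <;> simp [h3, h4] <;> ring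
  · intro a c a' c'
    have e : ∀ b b', (((Matrix.of fun p q : A × B × B => V p.1 q.1 * if p.2 = q.2 then 1 else 0) +
        (Matrix.of fun p q : A × B × B => D (p.1, p.2.1) (q.1, q.2.1) *
          if p.2.2 = q.2.2 then 1 else 0)) +
        (Matrix.of fun p q : A × B × B => D (p.1, p.2.2) (q.1, q.2.2) *
          if p.2.1 = q.2.1 then 1 else 0)) (a, b, c) (a', b', c') * Q b' b =
        (V a a' * (if c = c' then 1 else 0) + D (a, c) (a', c')) *
          (if b = b' then Q b' b else 0) +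
          (if c = c' then 1 else 0) * (D (a, b) (a', b') * Q b' b) := by
      intro b b'
      simp only [Matrix.add_apply, Matrix.of_apply, Prod.mk.injEq]
      by_cases h3 : b = b' <;> by_cases h4 : c = c' <;> simp [h3, h4] <;> ring
    simp only [e, Finset.sum_add_distrib, ← Finset.mul_sum]
    have e2 : ∑ c, ∑ c', (if c = c' then Q c' c else 0) = 1 := by
      simp [hQt]
    rw [e2, hXv, hR]
    by_cases h3 : a = a' <;> by_cases h4 : c = c' <;> simp [h3, h4] <;> ring

theorem exists_ext {R : Matrix (A × B) (A × B) ℂ} {r : ℝ} (h1 : (R - (r : ℂ) • 1).PosSemidef)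
    (h2 : ((2 * r : ℝ) : ℂ) • 1 - R |>.PosSemidef) {Q : Matrix B B ℂ} (hQ : Q.PosSemidef)
    (hQ0 : Q.trace ≠ 0) : ∃ K, IsExt R Q K := by
  obtain ⟨τ, hτ⟩ : ∃ τ : ℝ, Q.trace = (τ : ℂ) := ⟨Q.trace.re, by
    have := hQ.trace_nonneg
    rw [Complex.le_def] at this
    apply Complex.ext
    · simp
    · simpa using this.2.symm⟩
  have hτ0 : 0 < τ := by
    have h3 := hQ.trace_nonneg
    rw [hτ] at h3 hQ0
    have h4 : 0 ≤ τ := by exact_mod_cast h3
    have h5 : τ ≠ 0 := by exact_mod_cast hQ0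
    exact lt_of_le_of_ne h4 (Ne.symm h5)
  have hτc : (τ : ℂ) ≠ 0 := by exact_mod_cast hτ0.ne'
  have hQ' : (((τ⁻¹ : ℝ) : ℂ) • Q).PosSemidef :=
    hQ.smul (by exact_mod_cast (inv_pos.mpr hτ0).le)
  have hQ1 : (((τ⁻¹ : ℝ) : ℂ) • Q).trace = 1 := by
    rw [trace_smul, hτ, smul_eq_mul]
    push_cast
    exact inv_mul_cancel₀ hτc
  obtain ⟨K, hK, hK1, hK2⟩ := exists_ext_one h1 h2 hQ' hQ1
  refine ⟨((τ⁻¹ : ℝ) : ℂ) • K, hK.smul (by exact_mod_cast (inv_pos.mpr hτ0).le), ?_, ?_⟩
  · intro a b a' b'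
    rw [← hK1]
    refine Finset.sum_congr rfl fun c _ => Finset.sum_congr rfl fun c' _ => ?_
    simp only [Matrix.smul_apply, smul_eq_mul]
    ring
  · intro a b a' b'
    rw [← hK2]
    refine Finset.sum_congr rfl fun c _ => Finset.sum_congr rfl fun c' _ => ?_
    simp only [Matrix.smul_apply, smul_eq_mul]
    ring

/-- Contraction of the last system. -/
def ctrL (L : Matrix (A × B × B) (A × B × B) ℂ) (G : Matrix B B ℂ) :
    Matrix (A × B) (A × B) ℂ :=
  fun p q => ∑ c, ∑ c', L (p.1, p.2, c) (q.1, q.2, c') * G c' c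

/-- Contraction of the middle system. -/
def ctrM (L : Matrix (A × B × B) (A × B × B) ℂ) (G : Matrix B B ℂ) :
    Matrix (A × B) (A × B) ℂ :=
  fun p q => ∑ b, ∑ b', L (p.1, b, p.2) (q.1, b', q.2) * G b' b

theorem ctrL_eq (L : Matrix (A × B × B) (A × B × B) ℂ) (G : Matrix B B ℂ) :
    ctrL L G = ctr (X := A × B) (Y := B) (L.submatrix (fun p : (A × B) × B => (p.1.1, p.1.2, p.2))
      fun p : (A × B) × B => (p.1.1, p.1.2, p.2)) G := by
  ext p q
  simp only [ctrL, ctr, Matrix.submatrix_apply]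

theorem ctrM_eq (L : Matrix (A × B × B) (A × B × B) ℂ) (G : Matrix B B ℂ) :
    ctrM L G = ctr (X := A × B) (Y := B) (L.submatrix (fun p : (A × B) × B => (p.1.1, p.2, p.1.2))
      fun p : (A × B) × B => (p.1.1, p.2, p.1.2)) G := by
  ext p q
  simp only [ctrM, ctr, Matrix.submatrix_apply]

theorem ctrL_posSemidef {L : Matrix (A × B × B) (A × B × B) ℂ} {G : Matrix B B ℂ}
    (hL : L.PosSemidef) (hG : G.PosSemidef) : (ctrL L G).PosSemidef := by
  rw [ctrL_eq]
  exact ctr_posSemidef (hL.submatrix _) hG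

theorem ctrM_posSemidef {L : Matrix (A × B × B) (A × B × B) ℂ} {G : Matrix B B ℂ}
    (hL : L.PosSemidef) (hG : G.PosSemidef) : (ctrM L G).PosSemidef := by
  rw [ctrM_eq]
  exact ctr_posSemidef (hL.submatrix _) hG

theorem ctrL_sum {ι : Type} (s : Finset ι) (L : Matrix (A × B × B) (A × B × B) ℂ)
    (G : ι → Matrix B B ℂ) : ∑ i ∈ s, ctrL L (G i) = ctrL L (∑ i ∈ s, G i) := by
  simp only [ctrL_eq]
  exact ctr_sum s _ G

theorem ctrL_sub (L : Matrix (A × B × B) (A × B × B) ℂ) (G G' : Matrix B B ℂ) :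
    ctrL L (G - G') = ctrL L G - ctrL L G' := by
  ext p q
  simp only [ctrL, Matrix.sub_apply, mul_sub, Finset.sum_sub_distrib]

theorem ctrM_sub (L : Matrix (A × B × B) (A × B × B) ℂ) (G G' : Matrix B B ℂ) :
    ctrM L (G - G') = ctrM L G - ctrM L G' := by
  ext p q
  simp only [ctrM, Matrix.sub_apply, mul_sub, Finset.sum_sub_distrib]

theorem ctrL_smul (L : Matrix (A × B × B) (A × B × B) ℂ) (x : ℂ) (G : Matrix B B ℂ) :
    ctrL L (x • G) = x • ctrL L G := by
  ext p q
  simp only [ctrL, Matrix.smul_apply, smul_eq_mul, Finset.mul_sum]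
  refine Finset.sum_congr rfl fun c _ => Finset.sum_congr rfl fun c' _ => ?_
  ring

theorem ctrL_smul' (L : Matrix (A × B × B) (A × B × B) ℂ) (x : ℂ) (G : Matrix B B ℂ) :
    ctrL (x • L) G = x • ctrL L G := by
  ext p q
  simp only [ctrL, Matrix.smul_apply, smul_eq_mul, Finset.mul_sum]
  refine Finset.sum_congr rfl fun c _ => Finset.sum_congr rfl fun c' _ => ?_
  ring

theorem ctrM_smul' (L : Matrix (A × B × B) (A × B × B) ℂ) (x : ℂ) (G : Matrix B B ℂ) :
    ctrM (x • L) G = x • ctrM L G := by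
  ext p q
  simp only [ctrM, Matrix.smul_apply, smul_eq_mul, Finset.mul_sum]
  refine Finset.sum_congr rfl fun c _ => Finset.sum_congr rfl fun c' _ => ?_
  ring

/-- `L` is, up to the factor `κ`, an extension of `R` to a second copy of Bob's system, relative to
the filter `G`. -/
def IsExtK (κ : ℝ) (R : Matrix (A × B) (A × B) ℂ) (G : Matrix B B ℂ)
    (L : Matrix (A × B × B) (A × B × B) ℂ) : Prop :=
  L.PosSemidef ∧ (R - ctrL L G).PosSemidef ∧ ((κ : ℂ) • ctrM L G - R).PosSemidef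

theorem IsExt.extK {S R : Matrix (A × B) (A × B) ℂ} {P G : Matrix B B ℂ}
    {L : Matrix (A × B × B) (A × B × B) ℂ} (h : IsExt S P L) {κ c : ℝ} (hκ : 0 ≤ κ) (hc : 0 < c)
    (h1 : (R - S).PosSemidef) (h2 : ((κ : ℂ) • S - R).PosSemidef) (h3 : (G - P).PosSemidef)
    (h4 : ((c : ℂ) • P - G).PosSemidef) :
    IsExtK (c * κ) R G (((c⁻¹ : ℝ) : ℂ) • L) := by
  obtain ⟨hL, hL1, hL2⟩ := h
  have hS1 : ctrL L P = S := by
    ext p q
    exact hL1 _ _ _ _
  have hS2 : ctrM L P = S := by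
    ext p q
    exact hL2 _ _ _ _
  have hc' : (0 : ℂ) ≤ ((c⁻¹ : ℝ) : ℂ) := by exact_mod_cast (inv_pos.mpr hc).le
  have hcc : ((c⁻¹ : ℝ) : ℂ) * (c : ℂ) = 1 := by
    rw [← Complex.ofReal_mul, inv_mul_cancel₀ hc.ne', Complex.ofReal_one]
  refine ⟨hL.smul hc', ?_, ?_⟩
  · have h5 := (ctrL_posSemidef hL h4).smul hc'
    rw [ctrL_sub, ctrL_smul, hS1, smul_sub, smul_smul, hcc, one_smul, ← ctrL_smul'] at h5
    have h6 := h1.add h5
    rwa [sub_add_sub_cancel] at h6
  · have h5 := (ctrM_posSemidef hL h3).smul (Complex.zero_le_real.mpr hκ)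
    rw [ctrM_sub, hS2, smul_sub] at h5
    have h6 := h5.add h2
    rw [sub_add_sub_cancel] at h6
    have h7 : ((c * κ : ℝ) : ℂ) • ctrM (((c⁻¹ : ℝ) : ℂ) • L) G = (κ : ℂ) • ctrM L G := by
      rw [ctrM_smul', smul_smul]
      congr 1
      push_cast
      have : (c : ℂ) ≠ 0 := by exact_mod_cast hc.ne'
      field_simp
    rwa [h7]

/-- Bob's single effects can be moved to a second copy of his system. -/
theorem exists_move {K : Type} [Fintype K] {κ : ℝ} {R : Matrix (A × B) (A × B) ℂ}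
    {g : K → Matrix B B ℂ} (hg : ∀ k, (g k).PosSemidef) (h : ∃ L, IsExtK κ R (∑ k, g k) L) :
    ∃ (M : K → Matrix (A × B) (A × B) ℂ) (N : Matrix (A × B) (A × B) ℂ),
      (∀ k, (M k).PosSemidef) ∧ (R - ∑ k, M k).PosSemidef ∧
      ((κ : ℂ) • N - R).PosSemidef ∧
      ∀ k a a', ∑ b, ∑ b', M k (a, b) (a', b') * (∑ l, g l) b' b =
        ∑ b, ∑ b', N (a, b) (a', b') * g k b' b := by
  obtain ⟨L, hL, hL1, hL2⟩ := h
  refine ⟨fun k => ctrL L (g k), ctrM L (∑ l, g l), fun k => ctrL_posSemidef hL (hg k),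
    ?_, hL2, ?_⟩
  · rwa [ctrL_sum]
  · intro k a a'
    simp only [ctrL, ctrM]
    have e1 : ∀ b b', (∑ c, ∑ c', L (a, b, c) (a', b', c') * g k c' c) * (∑ l, g l) b' b =
        ∑ c, ∑ c', (L (a, b, c) (a', b', c') * (∑ l, g l) b' b) * g k c' c := by
      intro b b'
      rw [Finset.sum_mul]
      refine Finset.sum_congr rfl fun c _ => ?_
      rw [Finset.sum_mul]
      refine Finset.sum_congr rfl fun c' _ => ?_
      ring
    simp only [e1]
    have e2 : ∀ (F : B → B → B → B → ℂ), ∑ b, ∑ b', ∑ c, ∑ c', F b b' c c' =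
        ∑ c, ∑ c', ∑ b, ∑ b', F b b' c c' := by
      intro F
      calc ∑ b, ∑ b', ∑ c, ∑ c', F b b' c c' = ∑ b, ∑ c, ∑ b', ∑ c', F b b' c c' :=
            Finset.sum_congr rfl fun b _ => Finset.sum_comm
        _ = ∑ c, ∑ b, ∑ b', ∑ c', F b b' c c' := Finset.sum_comm
        _ = ∑ c, ∑ b, ∑ c', ∑ b', F b b' c c' :=
            Finset.sum_congr rfl fun c _ => Finset.sum_congr rfl fun b _ => Finset.sum_comm
        _ = ∑ c, ∑ c', ∑ b, ∑ b', F b b' c c' :=
            Finset.sum_congr rfl fun c _ => Finset.sum_comm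
    rw [e2]
    refine Finset.sum_congr rfl fun c _ => Finset.sum_congr rfl fun c' _ => ?_
    simp only [← Finset.sum_mul]

end BF

end Vale.Agent.P372
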