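import Vale.Agent.P372.BF.Blocks
import Vale.Agent.P372.Lim.Final
import Vale.Agent.P372.R2.helper492.ProtoB

open Matrix Kronecker Filter Topology
open scoped ComplexOrder MatrixOrder

set_option linter.unusedSectionVars false

namespace Vale.Agent.P372

namespace BF

variable {A B E : Type} [Fintype A] [DecidableEq A] [Fintype B] [DecidableEq B]
  [Fintype E] [DecidableEq E]

theorem nearBlockProd_self {n : ℕ} (M : ℕ) {c : ℝ} (hc : 1 ≤ c)
    {G : Matrix (Fin n → A) (Fin n → A) ℂ} (hG : G.PosSemidef) : NearBlockProd n M c G := by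
  refine ⟨G, ⟨1, fun _ => 1, fun i x y => if h : (1 : Fin 2) = i then
    G (fun j => x ⟨j, h⟩) (fun j => y ⟨j, h⟩) else 1, ?_, ?_, ?_, ?_⟩, ?_, ?_⟩
  · have h : IsEmpty {j : Fin n // (1 : Fin 2) = 0} := ⟨fun j => absurd j.2 (by decide)⟩
    rw [Fintype.card_eq_zero]
    exact Nat.zero_le M
  · intro i _
    exact (Fintype.card_subtype_le _).trans_eq (Fintype.card_fin n)
  · intro i
    by_cases h : (1 : Fin 2) = i
    · subst h
      simp only [dite_true]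
      exact hG.submatrix fun (x : {j : Fin n // (1 : Fin 2) = 1} → A) (j : Fin n) => x ⟨j, rfl⟩
    · have h0 : IsEmpty {j : Fin n // (1 : Fin 2) = i} := ⟨fun j => h j.2⟩
      have h1 : (fun (x y : {j : Fin n // (1 : Fin 2) = i} → A) => if h : (1 : Fin 2) = i then
          G (fun j => x ⟨j, h⟩) (fun j => y ⟨j, h⟩) else 1) =
          (1 : Matrix ({j : Fin n // (1 : Fin 2) = i} → A) ({j : Fin n // (1 : Fin 2) = i} → A)
            ℂ) := by
        ext x y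
        rw [dif_neg h, Subsingleton.elim x y, Matrix.one_apply_eq]
      have h3 := PosSemidef.one (n := ({j : Fin n // (1 : Fin 2) = i} → A)) (R := ℂ)
      rw [← h1] at h3
      exact h3
  · intro p q
    rw [Fin.prod_univ_two]
    beta_reduce
    rw [dif_neg (show ¬ (1 : Fin 2) = 0 by decide), dif_pos rfl, one_mul]
  · rw [sub_self]
    exact PosSemidef.zero
  · have h : (c : ℂ) • G - G = ((c - 1 : ℝ) : ℂ) • G := by
      rw [Complex.ofReal_sub, sub_smul, Complex.ofReal_one, one_smul]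
    rw [h]
    exact hG.smul (Complex.zero_le_real.mpr (by linarith))

/-- A protocol with small error. -/
theorem exists_protocol {Ψ : Matrix (A × B) E ℂ} (h : 0 < distillableKey Ψ) {δ : ℝ}
    (hδ : 0 < δ) : ∃ (n ℓ : ℕ) (_ : 0 < ℓ) (T : Type) (_ : Fintype T)
      (f : T → (Fin ℓ → Bool) → Matrix (Fin n → A) (Fin n → A) ℂ)
      (g : T → (Fin ℓ → Bool) → Matrix (Fin n → B) (Fin n → B) ℂ) (ε : ℝ), ε < δ ∧
      LOCC (Fin ℓ → Bool) (Fin n → A) (Fin n → B) T f g ∧ KeyError f g (copies n Ψ) ε := by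
  rw [distillableKey] at h
  obtain ⟨r, ⟨ℓ, ε, hp, hε, hr⟩, hr0⟩ := lt_sSup_iff.mp h
  rw [hr] at hr0
  have h1 := Filter.eventually_lt_of_lt_liminf hr0
  have h2 := hε.eventually_lt_const hδ
  obtain ⟨n, hn1, hn2⟩ := (h1.and h2).exists
  have hn : 0 < ℓ n := by
    rcases Nat.eq_zero_or_pos (ℓ n) with h0 | h0
    · rw [h0] at hn1
      simp at hn1
    · exact h0
  obtain ⟨T, iT, f, g, hL, hK⟩ := hp n
  exact ⟨n, ℓ n, hn, T, iT, f, g, ε n, hn2, hL, hK⟩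

/-- A key bit with a small error is enough. -/
theorem pos_of_error {Ψ : Matrix (A × B) E ℂ} (h1 : (Ψ * Ψᴴ).trace = 1) {n ℓ : ℕ} (hℓ : 0 < ℓ)
    {T : Type} [Fintype T]
    {f : T → (Fin ℓ → Bool) → Matrix (Fin n → A) (Fin n → A) ℂ}
    {g : T → (Fin ℓ → Bool) → Matrix (Fin n → B) (Fin n → B) ℂ}
    (hL : LOCC (Fin ℓ → Bool) (Fin n → A) (Fin n → B) T f g)
    (h : KeyError f g (copies n Ψ) (1 / 64)) : 0 < distillableKey Ψ := by
  obtain ⟨hf, hg⟩ := PC.locc_psd hL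
  obtain ⟨τ, X, Y, -, -, hlt⟩ := PC.test_of_keyError (copies n Ψ) ⟨0, hℓ⟩ f g hf hg h
  rw [PC.copies_mul] at hlt
  exact (keyPos_iff A B E Ψ h1).mpr
    ⟨n, X false, Set.mem_univ _, X true, Set.mem_univ _, Y false, Y true, hlt⟩

/-- Blocks of any length give everything. -/
theorem equiv (Ψ : Matrix (A × B) E ℂ) (h : (Ψ * Ψᴴ).trace = 1) (M : ℕ) {c : ℝ} (hc : 1 ≤ c) :
    0 < distillableKey Ψ ↔ ∃ (N n ℓ : ℕ) (T : Type) (_ : Fintype T)
      (f : T → (Fin ℓ → Bool) → Matrix (Fin n → A) (Fin n → A) ℂ)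
      (g : T → (Fin ℓ → Bool) → Matrix (Fin n → B) (Fin n → B) ℂ), 0 < ℓ ∧
      LOCC (Fin ℓ → Bool) (Fin n → A) (Fin n → B) T f g ∧
      (∀ t, NearBlockProd N M c (∑ k, f t k) ∨ NearBlockProd N M c (∑ k, g t k)) ∧
      KeyError f g (copies n Ψ) (1 / 64) := by
  constructor
  · intro hpos
    obtain ⟨n, ℓ, hℓ, T, iT, f, g, ε, hε, hL, σ, hσ, hσ1, hsum⟩ :=
      exists_protocol hpos (δ := 1 / 64) (by norm_num)
    obtain ⟨hf, hg⟩ := Lim.locc_psd hL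
    exact ⟨n, n, ℓ, T, iT, f, g, hℓ, hL,
      fun t => Or.inr (nearBlockProd_self M hc (posSemidef_sum _ fun k _ => hg t k)),
      σ, hσ, hσ1, hsum.trans hε.le⟩
  · rintro ⟨N, n, ℓ, T, iT, f, g, hℓ, hL, -, herr⟩
    exact pos_of_error h hℓ hL herr

/-- PPT entangled states. -/
theorem ppt_filters (d k : ℕ) (s : ℝ) (hk : 2 ≤ k) (hd : k < d)
    (h : (k : ℝ) * d - 1 < s * (k + 1) * (d - 1)) (hs1 : s < 1) :
    (pptState d k s).PosDef ∧ (pTrans (pptState d k s)).PosDef ∧ (pptState d k s).trace = 1 ∧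
    ¬ IsSep (pptState d k s) ∧
    ∀ (E : Type) [Fintype E] [DecidableEq E]
      (Ψ : Matrix ((Fin d × Fin k) × (Fin d × Fin k)) E ℂ), Ψ * Ψᴴ = pptState d k s →
      ∀ (N M : ℕ) (c : ℝ), 0 < N → 8 * N ≤ k → 0 < c →
      ∀ (n ℓ : ℕ) (T : Type) [Fintype T]
        (f g : T → (Fin ℓ → Bool) →
          Matrix (Fin n → Fin d × Fin k) (Fin n → Fin d × Fin k) ℂ) (ε : ℝ),
        LOCC (Fin ℓ → Bool) (Fin n → Fin d × Fin k) (Fin n → Fin d × Fin k) T f g →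
        (∀ t, NearBlockProd N M c (∑ k, f t k) ∨ NearBlockProd N M c (∑ k, g t k)) →
        KeyError f g (copies n Ψ) ε →
        1 - ε ≤ c * ((k + 2 * s) / (k - 2 * s)) ^ M * ((2 ^ ℓ)⁻¹ + ε) := by
  obtain ⟨h1, h2, h3, h4, -⟩ := Lim.ppt_key d k s hk hd h hs1
  refine ⟨h1, h2, h3, h4, ?_⟩
  intro E _ _ Ψ hΨ N M c hN hNk hc n ℓ T _ f g ε hL hprod herr
  have hk0 : 0 < k := by omega
  have hs : 0 < s := Lim.ppt_pos hk0 hd h
  have hq := Lim.ppt_norm_pos hk0 hd hs1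
  obtain ⟨b1, b2, b3⟩ := Lim.ppt_bounds hk0 hd hs1 hs.le
  have hkR : (0 : ℝ) < k := by exact_mod_cast hk0
  have hk8 : (8 : ℝ) ≤ k := by
    have : 8 ≤ k := by omega
    exact_mod_cast this
  have hlt : 0 < 1 - 2 * s / k := by
    rw [sub_pos, div_lt_one hkR]
    linarith
  have hlo : 0 < (1 - 2 * s / k) * ((d : ℝ) ^ 2 * k ^ 2 - s * (d ^ 2 - d))⁻¹ :=
    mul_pos hlt (inv_pos.mpr hq)
  have hpow := Lim.ppt_pow (k := k) (D := 1) hN hs hs1 (by omega)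
  have hNN : ((1 + 2 * s / k) * ((d : ℝ) ^ 2 * k ^ 2 - s * (d ^ 2 - d))⁻¹) ^ N ≤
      2 * ((1 - 2 * s / k) * ((d : ℝ) ^ 2 * k ^ 2 - s * (d ^ 2 - d))⁻¹) ^ N := by
    rw [mul_pow, mul_pow, ← mul_assoc]
    refine mul_le_mul_of_nonneg_right ?_ (pow_nonneg (inv_pos.mpr hq).le N)
    push_cast at hpow
    linarith
  have hfin := near_filters (M := M) b1 hlo b2 b3 hNN hc Ψ hΨ n ℓ T f g ε hL hprod herr
  have hratio : (1 + 2 * s / k) * ((d : ℝ) ^ 2 * k ^ 2 - s * (d ^ 2 - d))⁻¹ /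
      ((1 - 2 * s / k) * ((d : ℝ) ^ 2 * k ^ 2 - s * (d ^ 2 - d))⁻¹) =
      (k + 2 * s) / (k - 2 * s) := by
    rw [mul_div_mul_right _ _ (inv_pos.mpr hq).ne']
    have h5 : (k : ℝ) - 2 * s ≠ 0 := by
      have : (0 : ℝ) < k - 2 * s := by linarith
      exact this.ne'
    have h6 : (1 : ℝ) - 2 * s / k ≠ 0 := hlt.ne'
    rw [div_eq_div_iff h6 h5]
    field_simp
  rwa [hratio] at hfin

end BF

end Vale.Agent.P372
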