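import Vale.Agent.P372.Official

open Matrix
open scoped ComplexOrder

namespace Vale.Agent.P372

/-- `LOCCm K C A B T f g`: a protocol as in `LOCC K A B T f g` in which, for every reply strategy of
Alice (what she announces as a function of the past), there are at most `C` different sequences of
announcements of Bob (so Bob announces at most `log₂ C` bits in the whole protocol). -/
inductive LOCCm (K : Type) [Fintype K] :
    (C : ℕ) → (A B T : Type) → (T → K → Matrix A A ℂ) → (T → K → Matrix B B ℂ) → Prop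
  | output {A B : Type} [DecidableEq A] [DecidableEq B] (P : K → Matrix A A ℂ)
      (Q : K → Matrix B B ℂ) (hP : ∀ k, (P k).PosSemidef) (hP1 : ∑ k, P k = 1)
      (hQ : ∀ k, (Q k).PosSemidef) (hQ1 : ∑ k, Q k = 1) (C : ℕ) (hC : 1 ≤ C) :
      LOCCm K C A B Unit (fun _ => P) (fun _ => Q)
  | alice {A B : Type} [DecidableEq A] (A' M R : Type) [Fintype A'] [Fintype M] [Fintype R]
      (V : M → R → Matrix A' A ℂ) (hV : ∑ m, ∑ r, (V m r)ᴴ * V m r = 1) (T : M → Type)
      (f : ∀ m, T m → K → Matrix A' A' ℂ) (g : ∀ m, T m → K → Matrix B B ℂ) (C : ℕ)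
      (h : ∀ m, LOCCm K C A' B (T m) (f m) (g m)) :
      LOCCm K C A B (Σ m, T m) (fun t k => ∑ r, (V t.1 r)ᴴ * f t.1 t.2 k * V t.1 r)
        (fun t k => g t.1 t.2 k)
  | bob {A B : Type} [DecidableEq B] (B' M R : Type) [Fintype B'] [Fintype M] [Fintype R]
      (V : M → R → Matrix B' B ℂ) (hV : ∑ m, ∑ r, (V m r)ᴴ * V m r = 1) (T : M → Type)
      (f : ∀ m, T m → K → Matrix A A ℂ) (g : ∀ m, T m → K → Matrix B' B' ℂ) (C : ℕ) (c : M → ℕ)
      (hc : ∑ m, c m ≤ C) (h : ∀ m, LOCCm K (c m) A B' (T m) (f m) (g m)) :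
      LOCCm K C A B (Σ m, T m) (fun t k => f t.1 t.2 k)
        (fun t k => ∑ r, (V t.1 r)ᴴ * g t.1 t.2 k * V t.1 r)

end Vale.Agent.P372
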