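import Vale.Agent.P372.BF.MultiExt
import Vale.Agent.P372.BF.Final

open Matrix Kronecker
open scoped ComplexOrder MatrixOrder

set_option linter.unusedSectionVars false

namespace Vale.Agent.P372

namespace BF

variable {A B E F : Type} [Fintype A] [DecidableEq A] [Fintype B] [DecidableEq B]
  [Fintype E] [DecidableEq E] [Fintype F] [DecidableEq F]

/-- The bound for one transcript, effects of Bob dominated by a product. -/
theorem side_bound {κ : Type} [Fintype κ] [DecidableEq κ] {n N K : ℕ}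
    {ρ : Matrix (A × B) (A × B) ℂ} {lo hi γ : ℝ}
    (hlo : 0 < lo) (hlohi : lo ≤ hi) (h1 : (ρ - (lo : ℂ) • 1).PosSemidef)
    (h2 : ((hi : ℂ) • 1 - ρ).PosSemidef) (hN : K * hi ^ N ≤ (K + 1) * lo ^ N)
    (Φ : Matrix ((Fin n → A) × (Fin n → B)) F ℂ) (hΦ : Φ * Φᴴ = cop (Fin n) ρ)
    {f : κ → Matrix (Fin n → A) (Fin n → A) ℂ} {g : κ → Matrix (Fin n → B) (Fin n → B) ℂ}
    (hf : ∀ k, (f k).PosSemidef) (hg : ∀ k, (g k).PosSemidef)
    {P : Matrix (Fin n → B) (Fin n → B) ℂ} (hB : BlockProd N 0 P)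
    (hP : (P - ∑ k, g k).PosSemidef)
    (hγ : (((∑ k, f k) ⊗ₖ P) * cop (Fin n) ρ).trace.re ≤ γ) {σ : Matrix F F ℂ}
    (hσ : σ.PosSemidef) :
    ∑ k, (eve Φ (f k) (g k)).trace.re ≤ (Fintype.card κ : ℝ)⁻¹ * σ.trace.re +
      ∑ k, ∑ l, traceNorm (eve Φ (f k) (g l) - if k = l then ((Fintype.card κ : ℂ)⁻¹) • σ
        else 0) + γ / (K + 1) := by
  have hρ : ρ.PosSemidef := by
    have h4 : ρ = (ρ - (lo : ℂ) • 1) + (lo : ℂ) • (1 : Matrix _ _ ℂ) := by abel
    rw [h4]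
    exact h1.add (PosSemidef.one.smul (by exact_mod_cast hlo.le))
  have hhi : 0 < hi := hlo.trans_le hlohi
  have hK : (0 : ℝ) < K + 1 := by positivity
  have hnn : 0 ≤ (Fintype.card κ : ℝ)⁻¹ * σ.trace.re +
      ∑ k, ∑ l, traceNorm (eve Φ (f k) (g l) - if k = l then ((Fintype.card κ : ℂ)⁻¹) • σ
        else 0) := by
    refine add_nonneg (mul_nonneg (by positivity) (Lim.re_tr_nonneg hσ)) ?_
    exact Finset.sum_nonneg fun k _ => Finset.sum_nonneg fun l _ => traceNorm_nonneg _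
  obtain ⟨m, π, Q, hc0, hcN, hQ, hPQ⟩ := hB
  by_cases h0 : ∃ i, (Q i).trace = 0
  · obtain ⟨i, hi⟩ := h0
    have hQi : Q i = 0 := (hQ i).trace_eq_zero_iff.mp hi
    have hP0 : P = 0 := by
      ext p q
      rw [hPQ, Matrix.zero_apply]
      exact Finset.prod_eq_zero (Finset.mem_univ i) (by rw [hQi, Matrix.zero_apply])
    have hG : (∑ k, g k).PosSemidef := posSemidef_sum _ fun k _ => hg k
    have hG0 : ∑ k, g k = 0 := by
      rw [hP0, zero_sub] at hP
      have h3 := hP.trace_nonneg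
      rw [trace_neg] at h3
      exact hG.trace_eq_zero_iff.mp (le_antisymm (neg_nonneg.mp h3) hG.trace_nonneg)
    have h3 : ∀ k, g k = 0 := sum_zero_of_posSemidef hg hG0
    have h4 : ∑ k, (eve Φ (f k) (g k)).trace.re = 0 := by
      refine Finset.sum_eq_zero fun k _ => ?_
      rw [h3, eve_zero_right, trace_zero, Complex.zero_re]
    have h5 : 0 ≤ γ := by
      rw [hP0] at hγ
      have h6 : ((∑ k, f k) ⊗ₖ (0 : Matrix (Fin n → B) (Fin n → B) ℂ)) = 0 := by
        ext p q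
        simp only [kroneckerMap_apply, Matrix.zero_apply, mul_zero]
      rw [h6, Matrix.zero_mul, trace_zero, Complex.zero_re] at hγ
      exact hγ
    rw [h4]
    exact add_nonneg hnn (div_nonneg h5 hK.le)
  · push Not at h0
    have hext : ∃ L : Matrix ((Fin n → A) × (Fin (K + 1) → Fin n → B))
        ((Fin n → A) × (Fin (K + 1) → Fin n → B)) ℂ, IsExtS (cop (Fin n) ρ) P L := by
      rw [cop_eq_bprod π ρ]
      refine extS_blocks π (fun i => ?_) hPQ
      have hcard : Fintype.card {j // π j = i} ≤ N := by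
        by_cases hi0 : i = 0
        · subst hi0
          exact hc0.trans (Nat.zero_le N)
        · exact hcN i hi0
      have hpow : K * hi ^ Fintype.card {j // π j = i} ≤
          (K + 1) * lo ^ Fintype.card {j // π j = i} := by
        obtain ⟨r, hr⟩ := Nat.exists_eq_add_of_le hcard
        rw [hr, pow_add, pow_add] at hN
        have h3 : lo ^ r ≤ hi ^ r := pow_le_pow_left₀ hlo.le hlohi r
        have h4 : 0 < lo ^ r := pow_pos hlo r
        have h5 : 0 ≤ K * hi ^ Fintype.card {j // π j = i} :=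
          mul_nonneg (Nat.cast_nonneg K) (pow_pos hhi _).le
        by_contra hcon
        push Not at hcon
        have h6 : (K + 1) * (lo ^ Fintype.card {j // π j = i} * lo ^ r) <
            K * (hi ^ Fintype.card {j // π j = i} * hi ^ r) := by
          calc (K + 1) * (lo ^ Fintype.card {j // π j = i} * lo ^ r)
              = ((K + 1) * lo ^ Fintype.card {j // π j = i}) * lo ^ r := by ring
            _ < (K * hi ^ Fintype.card {j // π j = i}) * lo ^ r :=
                mul_lt_mul_of_pos_right hcon h4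
            _ ≤ (K * hi ^ Fintype.card {j // π j = i}) * hi ^ r :=
                mul_le_mul_of_nonneg_left h3 h5
            _ = _ := by ring
        linarith
      refine exists_extS (cop_low {j // π j = i} hlo.le h1) ?_ (hQ i) (h0 i)
      have h7 := (cop_high {j // π j = i} hρ h2).smul
        (Complex.zero_le_real.mpr (Nat.cast_nonneg K) : (0 : ℂ) ≤ ((K : ℝ) : ℂ))
      have h8 : ((((K + 1) * lo ^ Fintype.card {j // π j = i} : ℝ) : ℂ) • 1 -
          ((K : ℝ) : ℂ) • cop {j // π j = i} ρ) =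
          ((K : ℝ) : ℂ) • (((hi ^ Fintype.card {j // π j = i} : ℝ) : ℂ) • 1 -
          cop {j // π j = i} ρ) + ((((K + 1) * lo ^ Fintype.card {j // π j = i} -
            K * hi ^ Fintype.card {j // π j = i} : ℝ) : ℂ) • (1 : Matrix _ _ ℂ)) := by
        rw [Complex.ofReal_sub, sub_smul, smul_sub, smul_smul, ← Complex.ofReal_mul]
        abel
      rw [h8]
      exact h7.add (PosSemidef.one.smul (by exact_mod_cast sub_nonneg.mpr hpow))
    obtain ⟨L, hL⟩ := hext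
    have hunit : ∃ W', (Φ * Φᴴ) * W' = 1 := by
      rw [hΦ]
      have h3 : (cop (Fin n) ρ).PosDef := by
        have h4 : cop (Fin n) ρ = ((lo ^ Fintype.card (Fin n) : ℝ) : ℂ) •
            (1 : Matrix ((Fin n → A) × (Fin n → B)) ((Fin n → A) × (Fin n → B)) ℂ) +
              (cop (Fin n) ρ - ((lo ^ Fintype.card (Fin n) : ℝ) : ℂ) • 1) := by abel
        rw [h4]
        exact (PosDef.one.smul (by exact_mod_cast pow_pos hlo _)).add_posSemidef
          (cop_low (Fin n) hlo.le h1)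
      exact ⟨(cop (Fin n) ρ)⁻¹, Matrix.mul_nonsing_inv _
        ((Matrix.isUnit_iff_isUnit_det _).mp h3.isUnit)⟩
    obtain ⟨W', hW'⟩ := hunit
    rw [← hΦ] at hL hγ
    refine (multi_bound Φ hW' hf hg hP hL hσ).trans ?_
    gcongr

/-- States close to the maximally mixed state: no key if the total effects of one party are
dominated by products over blocks with a small total weight. -/
theorem multi_filters {ρ : Matrix (A × B) (A × B) ℂ} {lo hi : ℝ} {N K : ℕ}
    (htr : ρ.trace = 1) (hlo : 0 < lo) (h1 : (ρ - (lo : ℂ) • 1).PosSemidef)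
    (h2 : ((hi : ℂ) • 1 - ρ).PosSemidef) (hN : K * hi ^ N ≤ (K + 1) * lo ^ N)
    (Ψ : Matrix (A × B) E ℂ) (hΨ : Ψ * Ψᴴ = ρ) (n ℓ : ℕ) (T : Type)
    [Fintype T] (f : T → (Fin ℓ → Bool) → Matrix (Fin n → A) (Fin n → A) ℂ)
    (g : T → (Fin ℓ → Bool) → Matrix (Fin n → B) (Fin n → B) ℂ) (γ : T → ℝ) (ε : ℝ)
    (hL : LOCC (Fin ℓ → Bool) (Fin n → A) (Fin n → B) T f g)
    (hprod : ∀ t, Dominated N ρ (∑ k, f t k) (∑ k, g t k) (γ t))
    (herr : KeyError f g (copies n Ψ) ε) :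
    1 - ε ≤ (2 ^ ℓ)⁻¹ + ε + (∑ t, γ t) / (K + 1) := by
  have hne : Nonempty (A × B) := by
    by_contra hcon
    rw [not_nonempty_iff] at hcon
    rw [Matrix.trace, Finset.univ_eq_empty, Finset.sum_empty] at htr
    exact zero_ne_one htr
  have hlohi : lo ≤ hi := by
    obtain ⟨p⟩ := hne
    have h3 := (h1.add h2).diag_nonneg (i := p)
    have h4 : ((ρ - (lo : ℂ) • 1) + ((hi : ℂ) • 1 - ρ)) p p = ((hi - lo : ℝ) : ℂ) := by
      simp only [Matrix.add_apply, Matrix.sub_apply, Matrix.smul_apply, Matrix.one_apply_eq,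
        smul_eq_mul]
      push_cast
      ring
    rw [h4, Complex.zero_le_real] at h3
    linarith
  have hW : copies n Ψ * (copies n Ψ)ᴴ = cop (Fin n) ρ := by
    rw [copies_mul, hΨ]
    rfl
  have htp : tpow n ρ = cop (Fin n) ρ := rfl
  obtain ⟨hf, hg⟩ := Lim.locc_psd hL
  have hρ' : (ρ.submatrix (Prod.swap : B × A → A × B) Prod.swap - (lo : ℂ) • 1).PosSemidef := by
    have h3 := h1.submatrix (Prod.swap : B × A → A × B)
    have h4 : (ρ - (lo : ℂ) • 1).submatrix (Prod.swap : B × A → A × B) Prod.swap =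
        ρ.submatrix Prod.swap Prod.swap - (lo : ℂ) • 1 := by
      ext p q
      simp only [submatrix_apply, Matrix.sub_apply, Matrix.smul_apply, Matrix.one_apply,
        Prod.swap_injective.eq_iff]
    rwa [h4] at h3
  have hρ'' : ((hi : ℂ) • 1 - ρ.submatrix (Prod.swap : B × A → A × B)
      Prod.swap).PosSemidef := by
    have h3 := h2.submatrix (Prod.swap : B × A → A × B)
    have h4 : ((hi : ℂ) • 1 - ρ).submatrix (Prod.swap : B × A → A × B) Prod.swap =
        (hi : ℂ) • 1 - ρ.submatrix Prod.swap Prod.swap := by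
      ext p q
      simp only [submatrix_apply, Matrix.sub_apply, Matrix.smul_apply, Matrix.one_apply,
        Prod.swap_injective.eq_iff]
    rwa [h4] at h3
  obtain ⟨σ, hσ, hσ1, hsum⟩ := herr
  obtain ⟨e, he⟩ : ∃ e : T → ℝ, ∀ t, e t = ∑ k, ∑ l, traceNorm (eve (copies n Ψ) (f t k)
      (g t l) - if k = l then ((Fintype.card (Fin ℓ → Bool) : ℂ)⁻¹) • σ t else 0) :=
    ⟨_, fun _ => rfl⟩
  have hbound : ∀ t, ∑ k, (eve (copies n Ψ) (f t k) (g t k)).trace.re ≤
      (Fintype.card (Fin ℓ → Bool) : ℝ)⁻¹ * (σ t).trace.re + e t + γ t / (K + 1) := by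
    intro t
    rcases hprod t with ⟨P, hB, hP, hγ⟩ | ⟨P, hB, hP, hγ⟩
    · obtain ⟨Φ, hΦd⟩ : ∃ Φ : Matrix ((Fin n → B) × (Fin n → A)) (Fin n → E) ℂ,
          Φ = (copies n Ψ).submatrix Prod.swap id := ⟨_, rfl⟩
      have hsw : ∀ (V : Matrix (Fin n → A) (Fin n → A) ℂ) (W : Matrix (Fin n → B) (Fin n → B) ℂ),
          eve (copies n Ψ) V W = eve Φ W V := by
        intro V W
        ext e e'
        rw [hΦd]
        simp only [eve, Matrix.submatrix_apply, id_eq]
        rw [← Equiv.sum_comp (Equiv.prodComm (Fin n → B) (Fin n → A))]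
        refine Finset.sum_congr rfl fun p _ => ?_
        rw [← Equiv.sum_comp (Equiv.prodComm (Fin n → B) (Fin n → A))]
        refine Finset.sum_congr rfl fun q _ => ?_
        simp only [Equiv.prodComm_apply, Prod.swap]
        ring
      have hR : Φ * Φᴴ = cop (Fin n) (ρ.submatrix (Prod.swap : B × A → A × B) Prod.swap) := by
        have h5 : Φ * Φᴴ = (copies n Ψ * (copies n Ψ)ᴴ).submatrix
            (Prod.swap : (Fin n → B) × (Fin n → A) → (Fin n → A) × (Fin n → B)) Prod.swap := by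
          rw [hΦd]
          ext p q
          simp only [Matrix.mul_apply, conjTranspose_apply, Matrix.submatrix_apply, id_eq]
        rw [h5, hW]
        rfl
      have hγ' : (((∑ k, g t k) ⊗ₖ P) * cop (Fin n)
          (ρ.submatrix (Prod.swap : B × A → A × B) Prod.swap)).trace.re ≤ γ t := by
        refine le_trans (le_of_eq ?_) hγ
        congr 1
        rw [htp]
        simp only [Matrix.trace, Matrix.diag, Matrix.mul_apply, kroneckerMap_apply]
        rw [← Equiv.sum_comp (Equiv.prodComm (Fin n → B) (Fin n → A))]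
        refine Finset.sum_congr rfl fun p _ => ?_
        rw [← Equiv.sum_comp (Equiv.prodComm (Fin n → B) (Fin n → A))]
        refine Finset.sum_congr rfl fun q _ => ?_
        simp only [Equiv.prodComm_apply, Prod.swap, cop, Matrix.submatrix_apply]
        ring
      have h6 := side_bound (K := K) hlo hlohi hρ' hρ'' hN Φ hR (hg t) (hf t) hB hP hγ' (hσ t)
      have e1 : ∀ k l, eve (copies n Ψ) (f t k) (g t l) = eve Φ (g t l) (f t k) :=
        fun k l => hsw _ _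
      have e2 : e t = ∑ k, ∑ l, traceNorm (eve Φ (g t k) (f t l) -
          if k = l then ((Fintype.card (Fin ℓ → Bool) : ℂ)⁻¹) • σ t else 0) := by
        rw [he, Finset.sum_comm]
        refine Finset.sum_congr rfl fun k _ => Finset.sum_congr rfl fun l _ => ?_
        rw [e1]
        by_cases hkl : k = l
        · rw [if_pos hkl, if_pos hkl.symm]
        · rw [if_neg hkl, if_neg (Ne.symm hkl)]
      rw [e2]
      simp only [e1]
      exact h6
    · rw [he]
      exact side_bound (K := K) hlo hlohi h1 h2 hN (copies n Ψ) hW (hf t) (hg t) hB hP hγ (hσ t)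
  have hlow : ∀ t, (σ t).trace.re - e t ≤ ∑ k, (eve (copies n Ψ) (f t k) (g t k)).trace.re := by
    intro t
    rw [he]
    exact low_bound (copies n Ψ) (f t) (g t) (σ t)
  have hσ1' : ∑ t, (σ t).trace.re = 1 := by
    rw [← Complex.re_sum, hσ1, Complex.one_re]
  have hsum' : ∑ t, e t ≤ ε := by simpa only [he] using hsum
  have hcard : (Fintype.card (Fin ℓ → Bool) : ℝ) = 2 ^ ℓ := by simp
  have e1 : 1 - ∑ t, e t ≤ (2 ^ ℓ)⁻¹ + ∑ t, e t + (∑ t, γ t) / (K + 1) := by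
    calc 1 - ∑ t, e t = ∑ t, ((σ t).trace.re - e t) := by rw [Finset.sum_sub_distrib, hσ1']
      _ ≤ ∑ t, ∑ k, (eve (copies n Ψ) (f t k) (g t k)).trace.re :=
          Finset.sum_le_sum fun t _ => hlow t
      _ ≤ ∑ t, ((Fintype.card (Fin ℓ → Bool) : ℝ)⁻¹ * (σ t).trace.re + e t + γ t / (K + 1)) :=
          Finset.sum_le_sum fun t _ => hbound t
      _ = _ := by
        rw [Finset.sum_add_distrib, Finset.sum_add_distrib, ← Finset.mul_sum, hσ1', mul_one,
          hcard, Finset.sum_div]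
  linarith

/-- PPT entangled states. -/
theorem ppt_multi (d k : ℕ) (s : ℝ) (hk : 2 ≤ k) (hd : k < d)
    (h : (k : ℝ) * d - 1 < s * (k + 1) * (d - 1)) (hs1 : s < 1)
    (E : Type) [Fintype E] [DecidableEq E]
    (Ψ : Matrix ((Fin d × Fin k) × (Fin d × Fin k)) E ℂ) (hΨ : Ψ * Ψᴴ = pptState d k s)
    (N K : ℕ) (hN : 0 < N) (hNk : 4 * N * (K + 1) ≤ k)
    (n ℓ : ℕ) (T : Type) [Fintype T]
    (f g : T → (Fin ℓ → Bool) → Matrix (Fin n → Fin d × Fin k) (Fin n → Fin d × Fin k) ℂ)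
    (γ : T → ℝ) (ε : ℝ)
    (hL : LOCC (Fin ℓ → Bool) (Fin n → Fin d × Fin k) (Fin n → Fin d × Fin k) T f g)
    (hprod : ∀ t, Dominated N (pptState d k s) (∑ k, f t k) (∑ k, g t k) (γ t))
    (herr : KeyError f g (copies n Ψ) ε) :
    1 - ε ≤ (2 ^ ℓ)⁻¹ + ε + (∑ t, γ t) / (K + 1) := by
  have hk0 : 0 < k := by omega
  have hs : 0 < s := Lim.ppt_pos hk0 hd h
  have hq := Lim.ppt_norm_pos hk0 hd hs1
  obtain ⟨b1, b2, b3⟩ := Lim.ppt_bounds hk0 hd hs1 hs.le
  have hkR : (0 : ℝ) < k := by exact_mod_cast hk0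
  have hk8 : (2 : ℝ) ≤ k := by exact_mod_cast hk
  have hlt : 0 < 1 - 2 * s / k := by
    rw [sub_pos, div_lt_one hkR]
    linarith
  have hlo : 0 < (1 - 2 * s / k) * ((d : ℝ) ^ 2 * k ^ 2 - s * (d ^ 2 - d))⁻¹ :=
    mul_pos hlt (inv_pos.mpr hq)
  have hpow := Lim.ppt_pow (k := k) (D := K) hN hs hs1 hNk
  have hNN : K * ((1 + 2 * s / k) * ((d : ℝ) ^ 2 * k ^ 2 - s * (d ^ 2 - d))⁻¹) ^ N ≤
      (K + 1) * ((1 - 2 * s / k) * ((d : ℝ) ^ 2 * k ^ 2 - s * (d ^ 2 - d))⁻¹) ^ N := by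
    rw [mul_pow, mul_pow, ← mul_assoc, ← mul_assoc]
    exact mul_le_mul_of_nonneg_right hpow (pow_nonneg (inv_pos.mpr hq).le N)
  exact multi_filters b1 hlo b2 b3 hNN Ψ hΨ n ℓ T f g γ ε hL hprod herr

theorem locc_le_one {K A B T : Type} [Fintype K] {f : T → K → Matrix A A ℂ}
    {g : T → K → Matrix B B ℂ} (h : LOCC K A B T f g) : ∀ (_ : Fintype B) (_ : DecidableEq B) (t : T),
      (1 - ∑ k, g t k).PosSemidef := by
  induction h with
  | output P Q hP hP1 hQ hQ1 =>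
    intro _ _ t
    have e : (∑ k, Q k) = 1 := hQ1.trans (one_congr' _ _)
    rw [e, sub_self]
    exact PosSemidef.zero
  | alice A' M R V hV T f g h ih =>
    intro i1 i2 t
    exact ih t.1 i1 i2 t.2
  | bob B' M R V hV T f g h ih =>
    intro i1 i2 t
    classical
    have h1 := ih t.1 inferInstance inferInstance t.2
    have e : (1 : Matrix _ _ ℂ) - ∑ k, ∑ r, (V t.1 r)ᴴ * g t.1 t.2 k * V t.1 r =
        (∑ m ∈ Finset.univ.erase t.1, ∑ r, (V m r)ᴴ * V m r) +
          ∑ r, (V t.1 r)ᴴ * (1 - ∑ k, g t.1 t.2 k) * V t.1 r := by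
      have e1 : (1 : Matrix _ _ ℂ) = ∑ m, ∑ r, (V m r)ᴴ * V m r :=
        (hV.trans (one_congr' _ _)).symm
      have e3 : ∑ k, ∑ r, (V t.1 r)ᴴ * g t.1 t.2 k * V t.1 r =
          ∑ r, ∑ k, (V t.1 r)ᴴ * g t.1 t.2 k * V t.1 r := Finset.sum_comm
      rw [e3, e1, ← Finset.add_sum_erase _ _ (Finset.mem_univ t.1)]
      have e2 : ∀ r, (V t.1 r)ᴴ * (1 - ∑ k, g t.1 t.2 k) * V t.1 r =
          (V t.1 r)ᴴ * V t.1 r - ∑ k, (V t.1 r)ᴴ * g t.1 t.2 k * V t.1 r := by
        intro r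
        rw [Matrix.mul_sub, Matrix.sub_mul, Matrix.mul_one, Matrix.mul_sum, Matrix.sum_mul]
      simp only [e2, Finset.sum_sub_distrib]
      abel
    rw [e]
    exact (posSemidef_sum _ fun m _ => posSemidef_sum _ fun r _ =>
      posSemidef_conjTranspose_mul_self _).add
      (posSemidef_sum _ fun r _ => h1.conjTranspose_mul_mul_same _)

theorem locc_le_one' {K A B T : Type} [Fintype K] {f : T → K → Matrix A A ℂ}
    {g : T → K → Matrix B B ℂ} (h : LOCC K A B T f g) : ∀ (_ : Fintype A) (_ : DecidableEq A) (t : T),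
      (1 - ∑ k, f t k).PosSemidef := by
  induction h with
  | output P Q hP hP1 hQ hQ1 =>
    intro _ _ t
    have e : (∑ k, P k) = 1 := hP1.trans (one_congr' _ _)
    rw [e, sub_self]
    exact PosSemidef.zero
  | bob B' M R V hV T f g h ih =>
    intro i1 i2 t
    exact ih t.1 i1 i2 t.2
  | alice A' M R V hV T f g h ih =>
    intro i1 i2 t
    classical
    have h1 := ih t.1 inferInstance inferInstance t.2
    have e : (1 : Matrix _ _ ℂ) - ∑ k, ∑ r, (V t.1 r)ᴴ * f t.1 t.2 k * V t.1 r =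
        (∑ m ∈ Finset.univ.erase t.1, ∑ r, (V m r)ᴴ * V m r) +
          ∑ r, (V t.1 r)ᴴ * (1 - ∑ k, f t.1 t.2 k) * V t.1 r := by
      have e1 : (1 : Matrix _ _ ℂ) = ∑ m, ∑ r, (V m r)ᴴ * V m r :=
        (hV.trans (one_congr' _ _)).symm
      have e3 : ∑ k, ∑ r, (V t.1 r)ᴴ * f t.1 t.2 k * V t.1 r =
          ∑ r, ∑ k, (V t.1 r)ᴴ * f t.1 t.2 k * V t.1 r := Finset.sum_comm
      rw [e3, e1, ← Finset.add_sum_erase _ _ (Finset.mem_univ t.1)]
      have e2 : ∀ r, (V t.1 r)ᴴ * (1 - ∑ k, f t.1 t.2 k) * V t.1 r =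
          (V t.1 r)ᴴ * V t.1 r - ∑ k, (V t.1 r)ᴴ * f t.1 t.2 k * V t.1 r := by
        intro r
        rw [Matrix.mul_sub, Matrix.sub_mul, Matrix.mul_one, Matrix.mul_sum, Matrix.sum_mul]
      simp only [e2, Finset.sum_sub_distrib]
      abel
    rw [e]
    exact (posSemidef_sum _ fun m _ => posSemidef_sum _ fun r _ =>
      posSemidef_conjTranspose_mul_self _).add
      (posSemidef_sum _ fun r _ => h1.conjTranspose_mul_mul_same _)

theorem blockProd_one (n N : ℕ) (hN : 0 < N) :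
    BlockProd N 0 (1 : Matrix (Fin n → B) (Fin n → B) ℂ) := by
  refine ⟨n, Fin.succ, fun _ => 1, ?_, ?_, fun _ => PosSemidef.one, ?_⟩
  · have h : IsEmpty {j : Fin n // j.succ = 0} := ⟨fun j => Fin.succ_ne_zero _ j.2⟩
    rw [Fintype.card_eq_zero]
  · intro i _
    refine le_trans ?_ (Nat.succ_le_of_lt hN)
    rw [Fintype.card_le_one_iff]
    rintro ⟨a, ha⟩ ⟨b, hb⟩
    exact Subtype.ext (Fin.succ_injective _ (ha.trans hb.symm))
  · intro p q
    by_cases h : p = q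
    · subst h
      simp only [Matrix.one_apply_eq, Finset.prod_const_one]
    · rw [Matrix.one_apply_ne h]
      obtain ⟨j, hj⟩ := Function.ne_iff.mp h
      refine (Finset.prod_eq_zero (Finset.mem_univ j.succ) ?_).symm
      exact Matrix.one_apply_ne fun h2 => hj (congrFun h2 ⟨j, rfl⟩)

/-- The case of few messages of Bob or of Alice. -/
theorem few_messages {ρ : Matrix (A × B) (A × B) ℂ} {lo hi : ℝ} {K : ℕ}
    (htr : ρ.trace = 1) (hlo : 0 < lo) (h1 : (ρ - (lo : ℂ) • 1).PosSemidef)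
    (h2 : ((hi : ℂ) • 1 - ρ).PosSemidef) (hN : K * hi ≤ (K + 1) * lo)
    (Ψ : Matrix (A × B) E ℂ) (hΨ : Ψ * Ψᴴ = ρ) (n ℓ : ℕ) (T : Type)
    [Fintype T] (f : T → (Fin ℓ → Bool) → Matrix (Fin n → A) (Fin n → A) ℂ)
    (g : T → (Fin ℓ → Bool) → Matrix (Fin n → B) (Fin n → B) ℂ) (Γ ε : ℝ)
    (hL : LOCC (Fin ℓ → Bool) (Fin n → A) (Fin n → B) T f g)
    (hf : ((Γ : ℂ) • 1 - ∑ t, ∑ k, f t k).PosSemidef ∨
      ((Γ : ℂ) • 1 - ∑ t, ∑ k, g t k).PosSemidef)
    (herr : KeyError f g (copies n Ψ) ε) :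
    1 - ε ≤ (2 ^ ℓ)⁻¹ + ε + Γ / (K + 1) := by
  have hρn : (tpow n ρ).PosSemidef := by
    have h3 := cop_low (Fin n) hlo.le h1
    have h4 := h3.add ((PosSemidef.one (n := ((Fin n) → A) × ((Fin n) → B)) (R := ℂ)).smul
      (Complex.zero_le_real.mpr (pow_nonneg hlo.le (Fintype.card (Fin n)))))
    rwa [sub_add_cancel] at h4
  have hK : (0 : ℝ) < K + 1 := by positivity
  have h9 : (1 : Matrix ((Fin n → A) × (Fin n → B)) ((Fin n → A) × (Fin n → B)) ℂ) =
      (1 : Matrix (Fin n → A) (Fin n → A) ℂ) ⊗ₖ (1 : Matrix (Fin n → B) (Fin n → B) ℂ) :=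
    one_kronecker_one.symm
  rcases hf with hf | hf
  · obtain ⟨γ, hγ⟩ : ∃ γ : T → ℝ, γ = fun t => (((∑ k, f t k) ⊗ₖ
        (1 : Matrix (Fin n → B) (Fin n → B) ℂ)) * tpow n ρ).trace.re := ⟨_, rfl⟩
    have h3 := multi_filters (N := 1) (K := K) htr hlo h1 h2 (by simpa using hN) Ψ hΨ n ℓ T f g
      γ ε hL (fun t => Or.inr ⟨1, blockProd_one n 1 one_pos,
        locc_le_one hL inferInstance inferInstance t, by rw [hγ]⟩) herr
    have h4 : ∑ t, γ t ≤ Γ := by
      have h5 : ∑ t, γ t = (((∑ t, ∑ k, f t k) ⊗ₖ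
          (1 : Matrix (Fin n → B) (Fin n → B) ℂ)) * tpow n ρ).trace.re := by
        have h6 : (∑ t, ∑ k, f t k) ⊗ₖ (1 : Matrix (Fin n → B) (Fin n → B) ℂ) =
            ∑ t, ((∑ k, f t k) ⊗ₖ (1 : Matrix (Fin n → B) (Fin n → B) ℂ)) := by
          ext p q
          simp only [kroneckerMap_apply, Matrix.sum_apply, Finset.sum_mul]
        rw [h6, Matrix.sum_mul, trace_sum, Complex.re_sum, hγ]
      have h7 := re_tr_mul_nonneg (hf.kronecker (PosSemidef.one (n := Fin n → B) (R := ℂ))) hρn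
      have h8 : ((Γ : ℂ) • 1 - ∑ t, ∑ k, f t k) ⊗ₖ (1 : Matrix (Fin n → B) (Fin n → B) ℂ) =
          (Γ : ℂ) • 1 - (∑ t, ∑ k, f t k) ⊗ₖ (1 : Matrix (Fin n → B) (Fin n → B) ℂ) := by
        rw [h9]
        ext p q
        simp only [kroneckerMap_apply, Matrix.sub_apply, Matrix.smul_apply, smul_eq_mul]
        ring
      rw [h8, Matrix.sub_mul, Matrix.smul_mul, Matrix.one_mul, trace_sub, trace_smul,
        Lim.tpow_trace n htr, smul_eq_mul, mul_one, Complex.sub_re, Complex.ofReal_re] at h7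
      rw [h5]
      linarith
    have h5 : (∑ t, γ t) / (K + 1) ≤ Γ / (K + 1) := div_le_div_of_nonneg_right h4 hK.le
    linarith
  · obtain ⟨γ, hγ⟩ : ∃ γ : T → ℝ, γ = fun t => (((1 : Matrix (Fin n → A) (Fin n → A) ℂ) ⊗ₖ
        (∑ k, g t k)) * tpow n ρ).trace.re := ⟨_, rfl⟩
    have h3 := multi_filters (N := 1) (K := K) htr hlo h1 h2 (by simpa using hN) Ψ hΨ n ℓ T f g
      γ ε hL (fun t => Or.inl ⟨1, blockProd_one n 1 one_pos,
        locc_le_one' hL inferInstance inferInstance t, by rw [hγ]⟩) herr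
    have h4 : ∑ t, γ t ≤ Γ := by
      have h5 : ∑ t, γ t = (((1 : Matrix (Fin n → A) (Fin n → A) ℂ) ⊗ₖ
          (∑ t, ∑ k, g t k)) * tpow n ρ).trace.re := by
        have h6 : (1 : Matrix (Fin n → A) (Fin n → A) ℂ) ⊗ₖ (∑ t, ∑ k, g t k) =
            ∑ t, ((1 : Matrix (Fin n → A) (Fin n → A) ℂ) ⊗ₖ (∑ k, g t k)) := by
          ext p q
          simp only [kroneckerMap_apply, Matrix.sum_apply, Finset.mul_sum]
        rw [h6, Matrix.sum_mul, trace_sum, Complex.re_sum, hγ]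
      have h7 := re_tr_mul_nonneg
        ((PosSemidef.one (n := Fin n → A) (R := ℂ)).kronecker hf) hρn
      have h8 : (1 : Matrix (Fin n → A) (Fin n → A) ℂ) ⊗ₖ ((Γ : ℂ) • 1 - ∑ t, ∑ k, g t k) =
          (Γ : ℂ) • 1 - (1 : Matrix (Fin n → A) (Fin n → A) ℂ) ⊗ₖ (∑ t, ∑ k, g t k) := by
        rw [h9]
        ext p q
        simp only [kroneckerMap_apply, Matrix.sub_apply, Matrix.smul_apply, smul_eq_mul]
        ring
      rw [h8, Matrix.sub_mul, Matrix.smul_mul, Matrix.one_mul, trace_sub, trace_smul,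
        Lim.tpow_trace n htr, smul_eq_mul, mul_one, Complex.sub_re, Complex.ofReal_re] at h7
      rw [h5]
      linarith
    have h5 : (∑ t, γ t) / (K + 1) ≤ Γ / (K + 1) := div_le_div_of_nonneg_right h4 hK.le
    linarith

/-- PPT entangled states, few messages. -/
theorem ppt_few (d k : ℕ) (s : ℝ) (hk : 2 ≤ k) (hd : k < d)
    (h : (k : ℝ) * d - 1 < s * (k + 1) * (d - 1)) (hs1 : s < 1)
    (E : Type) [Fintype E] [DecidableEq E]
    (Ψ : Matrix ((Fin d × Fin k) × (Fin d × Fin k)) E ℂ) (hΨ : Ψ * Ψᴴ = pptState d k s)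
    (K : ℕ) (hNk : 4 * (K + 1) ≤ k)
    (n ℓ : ℕ) (T : Type) [Fintype T]
    (f g : T → (Fin ℓ → Bool) → Matrix (Fin n → Fin d × Fin k) (Fin n → Fin d × Fin k) ℂ)
    (Γ : ℝ) (ε : ℝ)
    (hL : LOCC (Fin ℓ → Bool) (Fin n → Fin d × Fin k) (Fin n → Fin d × Fin k) T f g)
    (hf : ((Γ : ℂ) • 1 - ∑ t, ∑ k, f t k).PosSemidef ∨
      ((Γ : ℂ) • 1 - ∑ t, ∑ k, g t k).PosSemidef)
    (herr : KeyError f g (copies n Ψ) ε) :
    1 - ε ≤ (2 ^ ℓ)⁻¹ + ε + Γ / (K + 1) := by
  have hk0 : 0 < k := by omega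
  have hs : 0 < s := Lim.ppt_pos hk0 hd h
  have hq := Lim.ppt_norm_pos hk0 hd hs1
  obtain ⟨b1, b2, b3⟩ := Lim.ppt_bounds hk0 hd hs1 hs.le
  have hkR : (0 : ℝ) < k := by exact_mod_cast hk0
  have hk8 : (2 : ℝ) ≤ k := by exact_mod_cast hk
  have hlt : 0 < 1 - 2 * s / k := by
    rw [sub_pos, div_lt_one hkR]
    linarith
  have hlo : 0 < (1 - 2 * s / k) * ((d : ℝ) ^ 2 * k ^ 2 - s * (d ^ 2 - d))⁻¹ :=
    mul_pos hlt (inv_pos.mpr hq)
  have hpow := Lim.ppt_pow (k := k) (D := K) (N := 1) one_pos hs hs1 (by omega)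
  rw [pow_one, pow_one] at hpow
  have hNN : K * ((1 + 2 * s / k) * ((d : ℝ) ^ 2 * k ^ 2 - s * (d ^ 2 - d))⁻¹) ≤
      (K + 1) * ((1 - 2 * s / k) * ((d : ℝ) ^ 2 * k ^ 2 - s * (d ^ 2 - d))⁻¹) := by
    rw [← mul_assoc, ← mul_assoc]
    exact mul_le_mul_of_nonneg_right hpow (inv_pos.mpr hq).le
  exact few_messages b1 hlo b2 b3 hNN Ψ hΨ n ℓ T f g Γ ε hL hf herr

end BF

end Vale.Agent.P372
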