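import Vale.Agent.P372.BF.MsgDefs
import Vale.Agent.P372.BF.MultiFinal

open Matrix Kronecker
open scoped ComplexOrder MatrixOrder

set_option linter.unusedSectionVars false

namespace Vale.Agent.P372

namespace BF

theorem loccm_locc {K A B T : Type} [Fintype K] {C : ℕ} {f : T → K → Matrix A A ℂ}
    {g : T → K → Matrix B B ℂ} (h : LOCCm K C A B T f g) : LOCC K A B T f g := by
  induction h with
  | output P Q hP hP1 hQ hQ1 C hC => exact LOCC.output P Q hP hP1 hQ hQ1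
  | alice A' M R V hV T f g C h ih => exact LOCC.alice A' M R V hV T f g ih
  | bob B' M R V hV T f g C c hc h ih => exact LOCC.bob B' M R V hV T f g ih

theorem loccm_sum {K A B T : Type} [Fintype K] {C : ℕ} {f : T → K → Matrix A A ℂ}
    {g : T → K → Matrix B B ℂ} (h : LOCCm K C A B T f g) :
    ∀ (_ : Fintype A) (_ : DecidableEq A) (_ : Fintype T),
      (((C : ℝ) : ℂ) • 1 - ∑ t, ∑ k, f t k).PosSemidef := by
  induction h with
  | output P Q hP hP1 hQ hQ1 C hC =>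
    intro i1 i2 i3
    have e : (∑ _t : Unit, ∑ k, P k) = 1 := by
      have e1 : (∑ _t : Unit, ∑ k, P k) = ∑ k, P k := by
        rw [Fintype.sum_unique]
      rw [e1]
      exact hP1.trans (one_congr' _ _)
    have e2 : ((C : ℝ) : ℂ) • (1 : Matrix _ _ ℂ) - ∑ _t : Unit, ∑ k, P k =
        (((C : ℝ) - 1 : ℝ) : ℂ) • 1 := by
      rw [e, Complex.ofReal_sub, sub_smul, Complex.ofReal_one, one_smul]
    rw [e2]
    have h1 : (1 : ℝ) ≤ C := by exact_mod_cast hC
    exact PosSemidef.one.smul (Complex.zero_le_real.mpr (by linarith))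
  | alice A' M R V hV T f g C h ih =>
    intro i1 i2 i3
    classical
    have : ∀ m, Fintype (T m) := fun m =>
      Fintype.ofInjective (fun t : T m => (⟨m, t⟩ : Σ m, T m)) sigma_mk_injective
    have h1 := fun m => ih m inferInstance inferInstance inferInstance
    have e1 : ∑ t : (Σ m, T m), ∑ k, ∑ r, (V t.1 r)ᴴ * f t.1 t.2 k * V t.1 r =
        ∑ m, ∑ t : T m, ∑ k, ∑ r, (V m r)ᴴ * f m t k * V m r := by
      rw [← Fintype.sum_sigma (fun t : (Σ m, T m) =>
        ∑ k, ∑ r, (V t.1 r)ᴴ * f t.1 t.2 k * V t.1 r)]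
      refine Finset.sum_congr ?_ fun _ _ => rfl
      ext t
      simp
    have e2 : ∀ m, ∑ t : T m, ∑ k, ∑ r, (V m r)ᴴ * f m t k * V m r =
        ∑ r, (V m r)ᴴ * (∑ t, ∑ k, f m t k) * V m r := by
      intro m
      have e3 : ∀ r, (V m r)ᴴ * (∑ t, ∑ k, f m t k) * V m r =
          ∑ t, ∑ k, (V m r)ᴴ * f m t k * V m r := by
        intro r
        rw [Matrix.mul_sum, Matrix.sum_mul]
        refine Finset.sum_congr rfl fun t _ => ?_
        rw [Matrix.mul_sum, Matrix.sum_mul]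
      simp only [e3]
      have e4 : ∀ t : T m, ∑ k, ∑ r, (V m r)ᴴ * f m t k * V m r =
          ∑ r, ∑ k, (V m r)ᴴ * f m t k * V m r := fun t => Finset.sum_comm
      simp only [e4]
      exact Finset.sum_comm
    have e5 : ((C : ℝ) : ℂ) • (1 : Matrix _ _ ℂ) -
        ∑ t : (Σ m, T m), ∑ k, ∑ r, (V t.1 r)ᴴ * f t.1 t.2 k * V t.1 r =
        ∑ m, ∑ r, (V m r)ᴴ * (((C : ℝ) : ℂ) • 1 - ∑ t, ∑ k, f m t k) * V m r := by
      rw [e1]
      simp only [e2, Matrix.mul_sub, Matrix.sub_mul, Finset.sum_sub_distrib, Matrix.mul_smul,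
        Matrix.smul_mul, Matrix.mul_one, ← Finset.smul_sum]
      congr 2
      exact (hV.trans (one_congr' _ _)).symm
    rw [e5]
    exact posSemidef_sum _ fun m _ => posSemidef_sum _ fun r _ =>
      (h1 m).conjTranspose_mul_mul_same _
  | bob B' M R V hV T f g C c hc h ih =>
    intro i1 i2 i3
    classical
    have : ∀ m, Fintype (T m) := fun m =>
      Fintype.ofInjective (fun t : T m => (⟨m, t⟩ : Σ m, T m)) sigma_mk_injective
    have h1 := fun m => ih m inferInstance inferInstance inferInstance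
    have e1 : ∑ t : (Σ m, T m), ∑ k, f t.1 t.2 k = ∑ m, ∑ t : T m, ∑ k, f m t k := by
      rw [← Fintype.sum_sigma (fun t : (Σ m, T m) => ∑ k, f t.1 t.2 k)]
      refine Finset.sum_congr ?_ fun _ _ => rfl
      ext t
      simp
    have e5 : ((C : ℝ) : ℂ) • (1 : Matrix _ _ ℂ) - ∑ t : (Σ m, T m), ∑ k, f t.1 t.2 k =
        ∑ m, (((c m : ℝ) : ℂ) • 1 - ∑ t, ∑ k, f m t k) +
          (((C : ℝ) - ∑ m, (c m : ℝ) : ℝ) : ℂ) • 1 := by
      rw [e1, Finset.sum_sub_distrib, ← Finset.sum_smul, Complex.ofReal_sub, sub_smul,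
        Complex.ofReal_sum]
      abel
    rw [e5]
    have h2 : ∑ m, (c m : ℝ) ≤ C := by exact_mod_cast hc
    exact (posSemidef_sum _ fun m _ => h1 m).add
      (PosSemidef.one.smul (Complex.zero_le_real.mpr (by linarith)))

theorem loccm_mono {K A B T : Type} [Fintype K] {C : ℕ} {f : T → K → Matrix A A ℂ}
    {g : T → K → Matrix B B ℂ} (h : LOCCm K C A B T f g) :
    ∀ C', C ≤ C' → LOCCm K C' A B T f g := by
  induction h with
  | output P Q hP hP1 hQ hQ1 C hC =>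
    intro C' hC'
    exact LOCCm.output P Q hP hP1 hQ hQ1 C' (hC.trans hC')
  | alice A' M R V hV T f g C h ih =>
    intro C' hC'
    exact LOCCm.alice A' M R V hV T f g C' fun m => ih m C' hC'
  | bob B' M R V hV T f g C c hc h ih =>
    intro C' hC'
    exact LOCCm.bob B' M R V hV T f g C' c (hc.trans hC') h

theorem exists_loccm {K A B T : Type} [Fintype K] {f : T → K → Matrix A A ℂ}
    {g : T → K → Matrix B B ℂ} (h : LOCC K A B T f g) : ∃ C, LOCCm K C A B T f g := by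
  induction h with
  | output P Q hP hP1 hQ hQ1 => exact ⟨1, LOCCm.output P Q hP hP1 hQ hQ1 1 le_rfl⟩
  | alice A' M R V hV T f g h ih =>
    choose C hC using ih
    exact ⟨∑ m, C m, LOCCm.alice A' M R V hV T f g _ fun m =>
      loccm_mono (hC m) _ (Finset.single_le_sum (fun _ _ => Nat.zero_le _) (Finset.mem_univ m))⟩
  | bob B' M R V hV T f g h ih =>
    choose C hC using ih
    exact ⟨∑ m, C m, LOCCm.bob B' M R V hV T f g _ C le_rfl hC⟩

/-- Key distillation is possible if and only if it is possible with finitely many messages. -/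
theorem equiv_msgs {A B E : Type} [Fintype A] [DecidableEq A] [Fintype B] [DecidableEq B]
    [Fintype E] [DecidableEq E] (Ψ : Matrix (A × B) E ℂ) (h : (Ψ * Ψᴴ).trace = 1) :
    0 < distillableKey Ψ ↔ ∃ (C n ℓ : ℕ) (T : Type) (_ : Fintype T)
      (f : T → (Fin ℓ → Bool) → Matrix (Fin n → A) (Fin n → A) ℂ)
      (g : T → (Fin ℓ → Bool) → Matrix (Fin n → B) (Fin n → B) ℂ), 0 < ℓ ∧
      LOCCm (Fin ℓ → Bool) C (Fin n → A) (Fin n → B) T f g ∧
      KeyError f g (copies n Ψ) (1 / 64) := by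
  constructor
  · intro hpos
    obtain ⟨n, ℓ, hℓ, T, iT, f, g, ε, hε, hL, σ, hσ, hσ1, hsum⟩ :=
      exists_protocol hpos (δ := 1 / 64) (by norm_num)
    obtain ⟨C, hC⟩ := exists_loccm hL
    exact ⟨C, n, ℓ, T, iT, f, g, hℓ, hC, σ, hσ, hσ1, hsum.trans hε.le⟩
  · rintro ⟨C, n, ℓ, T, iT, f, g, hℓ, hL, herr⟩
    exact pos_of_error h hℓ (loccm_locc hL) herr

/-- PPT entangled states without key if Bob announces at most `log₂ C` bits. -/
theorem few_bits (C : ℕ) (hC : 0 < C) : ∃ (A : Type) (_ : Fintype A) (_ : DecidableEq A)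
    (ρ : Matrix (A × A) (A × A) ℂ), ρ.PosDef ∧ (pTrans ρ).PosDef ∧ ρ.trace = 1 ∧ ¬ IsSep ρ ∧
    ∀ (E : Type) [Fintype E] [DecidableEq E] (Ψ : Matrix (A × A) E ℂ), Ψ * Ψᴴ = ρ →
      ∀ (n ℓ : ℕ), 0 < ℓ → ∀ (T : Type) [Fintype T]
        (f g : T → (Fin ℓ → Bool) → Matrix (Fin n → A) (Fin n → A) ℂ) (ε : ℝ), ε < 1 / 8 →
        LOCCm (Fin ℓ → Bool) C (Fin n → A) (Fin n → A) T f g →
        ¬ KeyError f g (copies n Ψ) ε := by
  obtain ⟨k, hk⟩ : ∃ k : ℕ, k = 16 * C := ⟨_, rfl⟩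
  obtain ⟨s, hs⟩ : ∃ s : ℝ, s = 1 - 1 / (2 * (k * (k + 1))) := ⟨_, rfl⟩
  have hk0 : (0 : ℝ) < k := by
    have : 0 < k := by omega
    exact_mod_cast this
  have hkk : (0 : ℝ) < k * (k + 1) := by positivity
  have hs1 : s < 1 := by
    rw [hs]
    have : 0 < 1 / (2 * ((k : ℝ) * (k + 1))) := by positivity
    linarith
  have hcond : (k : ℝ) * ((k + 1 : ℕ) : ℝ) - 1 < s * (k + 1) * (((k + 1 : ℕ) : ℝ) - 1) := by
    have e : s * (k + 1) * (((k + 1 : ℕ) : ℝ) - 1) = k * (k + 1) - 1 / 2 := by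
      rw [hs]
      push_cast
      field_simp
      ring
    rw [e]
    push_cast
    linarith
  obtain ⟨h1, h2, h3, h4, -⟩ := ppt_filters (k + 1) k s (by omega) (by omega) hcond hs1
  refine ⟨Fin (k + 1) × Fin k, inferInstance, inferInstance, pptState (k + 1) k s, h1, h2, h3, h4,
    ?_⟩
  intro E _ _ Ψ hΨ n ℓ hℓ T _ f g ε hε hL herr
  have h5 := ppt_few (k + 1) k s (by omega) (by omega) hcond hs1 E Ψ hΨ (4 * C - 1) (by omega)
    n ℓ T f g (C : ℝ) ε (loccm_locc hL) (Or.inl (loccm_sum hL inferInstance inferInstance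
      inferInstance)) herr
  have h6 : ((4 * C - 1 : ℕ) : ℝ) + 1 = 4 * C := by
    have : 4 * C - 1 + 1 = 4 * C := by omega
    exact_mod_cast this
  rw [h6] at h5
  have hC0 : (0 : ℝ) < C := by exact_mod_cast hC
  have h7 : (C : ℝ) / (4 * C) = 1 / 4 := by
    field_simp
  have h8 : ((2 : ℝ) ^ ℓ)⁻¹ ≤ 1 / 2 := by
    have h9 : (2 : ℝ) ^ 1 ≤ 2 ^ ℓ := pow_le_pow_right₀ (by norm_num) hℓ
    rw [pow_one] at h9
    rw [inv_eq_one_div]
    exact one_div_le_one_div_of_le (by norm_num) h9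
  rw [h7] at h5
  linarith

end BF

end Vale.Agent.P372
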