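import Vale.Agent.P372.BF.Blocks

open Matrix Kronecker
open scoped ComplexOrder MatrixOrder

set_option linter.unusedSectionVars false

namespace Vale.Agent.P372

namespace BF

variable {A B E X Y : Type} [Fintype A] [DecidableEq A] [Fintype B] [DecidableEq B]
  [Fintype E] [DecidableEq E] [Fintype X] [DecidableEq X] [Fintype Y] [DecidableEq Y]

theorem ctr_sub (M : Matrix (X × Y) (X × Y) ℂ) (Q Q' : Matrix Y Y ℂ) :
    ctr M (Q - Q') = ctr M Q - ctr M Q' := by
  ext p q
  simp only [ctr, Matrix.sub_apply, mul_sub, Finset.sum_sub_distrib]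

section seq

variable {K : ℕ}

/-- `u` before `j`, `v` at `j`, `w` after `j`. -/
def sq (u v w : Matrix B B ℂ) (j : Fin K) : Fin K → Matrix B B ℂ :=
  fun i => if i.val < j.val then u else if i = j then v else w

theorem piT_update (q : Fin K → Matrix B B ℂ) (j : Fin K) (v : Matrix B B ℂ) :
    piT (Function.update q j v) = Matrix.of fun e f =>
      v (e j) (f j) * ∏ k ∈ Finset.univ.erase j, q k (e k) (f k) := by
  ext e f
  rw [piT, Matrix.of_apply, ← Finset.mul_prod_erase Finset.univ _ (Finset.mem_univ j)]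
  congr 1
  · rw [Function.update_self]
  · refine Finset.prod_congr rfl fun k hk => ?_
    rw [Function.update_of_ne (Finset.ne_of_mem_erase hk)]

theorem piT_update_sub (q : Fin K → Matrix B B ℂ) (j : Fin K) (v v' : Matrix B B ℂ) :
    piT (Function.update q j (v - v')) =
      piT (Function.update q j v) - piT (Function.update q j v') := by
  rw [piT_update, piT_update, piT_update]
  ext e f
  simp only [Matrix.of_apply, Matrix.sub_apply, sub_mul]

theorem piT_update_sum {κ : Type} (s : Finset κ) (q : Fin K → Matrix B B ℂ) (j : Fin K)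
    (g : κ → Matrix B B ℂ) :
    piT (Function.update q j (∑ k ∈ s, g k)) = ∑ k ∈ s, piT (Function.update q j (g k)) := by
  simp only [piT_update]
  ext e f
  simp only [Matrix.of_apply, Matrix.sum_apply, Finset.sum_mul]

theorem sq_update (u v w v' : Matrix B B ℂ) (j : Fin K) :
    Function.update (sq u v w j) j v' = sq u v' w j := by
  funext i
  by_cases h : i = j
  · subst h
    rw [Function.update_self, sq, if_neg (lt_irrefl _), if_pos rfl]
  · rw [Function.update_of_ne h, sq, sq, if_neg h, if_neg h]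

theorem piT_sq_sum {κ : Type} (s : Finset κ) (u w : Matrix B B ℂ) (j : Fin K)
    (g : κ → Matrix B B ℂ) : piT (sq u (∑ k ∈ s, g k) w j) = ∑ k ∈ s, piT (sq u (g k) w j) := by
  have h := piT_update_sum s (sq u 0 w j) j g
  simpa only [sq_update] using h

theorem piT_tele (u w : Matrix B B ℂ) :
    ∑ j : Fin K, piT (sq u (w - u) w j) = piT (fun _ : Fin K => w) - piT (fun _ : Fin K => u) := by
  obtain ⟨F, hF⟩ : ∃ F : ℕ → Matrix (Fin K → B) (Fin K → B) ℂ,
      F = fun m => piT (fun i : Fin K => if i.val < m then u else w) := ⟨_, rfl⟩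
  have h1 : ∀ j : Fin K, piT (sq u (w - u) w j) = F j.val - F (j.val + 1) := by
    intro j
    have e1 : (fun i : Fin K => if i.val < j.val then u else w) = sq u w w j := by
      funext i
      rw [sq]
      by_cases h : i.val < j.val
      · rw [if_pos h, if_pos h]
      · rw [if_neg h, if_neg h]
        split_ifs <;> rfl
    have e2 : (fun i : Fin K => if i.val < j.val + 1 then u else w) = sq u u w j := by
      funext i
      rw [sq]
      by_cases h : i.val < j.val
      · rw [if_pos h, if_pos (by omega)]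
      · rw [if_neg h]
        by_cases h2 : i = j
        · rw [if_pos h2, if_pos (by rw [h2]; omega)]
        · have h3 : i.val ≠ j.val := fun h4 => h2 (Fin.ext h4)
          rw [if_neg h2, if_neg (by omega)]
    rw [hF]
    beta_reduce
    rw [e1, e2]
    have h := piT_update_sub (sq u 0 w j) j w u
    simpa only [sq_update] using h
  have h2 : ∑ j : Fin K, piT (sq u (w - u) w j) = ∑ m ∈ Finset.range K, (F m - F (m + 1)) := by
    rw [← Fin.sum_univ_eq_sum_range (fun m => F m - F (m + 1)) K]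
    exact Finset.sum_congr rfl fun j _ => h1 j
  rw [h2, Finset.sum_range_sub', hF]
  beta_reduce
  congr 1
  congr 1
  funext i
  rw [if_pos i.2]

end seq

/-- Contraction of all systems but the first two. -/
def pc {K : ℕ} (L : Matrix (A × (Fin (K + 1) → B)) (A × (Fin (K + 1) → B)) ℂ)
    (Q : Matrix (Fin K → B) (Fin K → B) ℂ) : Matrix (A × B) (A × B) ℂ :=
  ctr (X := A × B) (Y := Fin K → B)
    (L.submatrix (fun p => (p.1.1, Fin.cons p.1.2 p.2)) fun p => (p.1.1, Fin.cons p.1.2 p.2)) Q

theorem pc_posSemidef {K : ℕ} {L : Matrix (A × (Fin (K + 1) → B)) (A × (Fin (K + 1) → B)) ℂ}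
    (hL : L.PosSemidef) {Q : Matrix (Fin K → B) (Fin K → B) ℂ} (hQ : Q.PosSemidef) :
    (pc L Q).PosSemidef :=
  ctr_posSemidef (hL.submatrix _) hQ

theorem trace_pc {K : ℕ} (L : Matrix (A × (Fin (K + 1) → B)) (A × (Fin (K + 1) → B)) ℂ)
    (V : Matrix A A ℂ) (W : Matrix B B ℂ) (q : Fin K → Matrix B B ℂ) :
    ((V ⊗ₖ W) * pc L (piT q)).trace = (V * ctr L (piT (Fin.cons W q))).trace := by
  have e1 : ∀ a a', ctr L (piT (Fin.cons W q : Fin (K + 1) → Matrix B B ℂ)) a a' =
      ∑ b, ∑ b', W b' b * pc L (piT q) (a, b) (a', b') := by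
    intro a a'
    simp only [ctr, pc, Matrix.submatrix_apply, piT, Finset.mul_sum]
    rw [← Equiv.sum_comp (Fin.consEquiv fun _ => B), Fintype.sum_prod_type]
    refine Finset.sum_congr rfl fun b _ => ?_
    have e2 : ∀ y : Fin K → B, ∑ z' : Fin (K + 1) → B,
        L (a, (Fin.consEquiv fun _ => B) (b, y)) (a', z') *
          ∏ i, (Fin.cons W q : Fin (K + 1) → Matrix B B ℂ) i (z' i)
            ((Fin.consEquiv fun _ => B) (b, y) i) =
        ∑ b', ∑ y' : Fin K → B, W b' b * (L (a, Fin.cons b y) (a', Fin.cons b' y') *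
          ∏ i, q i (y' i) (y i)) := by
      intro y
      rw [← Equiv.sum_comp (Fin.consEquiv fun _ => B), Fintype.sum_prod_type]
      refine Finset.sum_congr rfl fun b' _ => Finset.sum_congr rfl fun y' _ => ?_
      have e3 : ∀ (b : B) (y : Fin K → B), (Fin.consEquiv fun _ => B) (b, y) =
          (Fin.cons b y : Fin (K + 1) → B) := fun _ _ => rfl
      rw [Fin.prod_univ_succ, e3, e3]
      simp only [Fin.cons_zero, Fin.cons_succ]
      ring
    simp only [e2]
    rw [Finset.sum_comm]
  simp only [Matrix.trace, Matrix.diag, Matrix.mul_apply, kroneckerMap_apply,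
    Fintype.sum_prod_type, e1, Finset.mul_sum]
  refine Finset.sum_congr rfl fun a' _ => ?_
  rw [Finset.sum_comm]
  refine Finset.sum_congr rfl fun a _ => ?_
  rw [Finset.sum_comm]
  refine Finset.sum_congr rfl fun b _ => Finset.sum_congr rfl fun b' _ => ?_
  ring

/-- Symmetric extensions of `R` to `K + 1` copies of Bob's system relative to the filter `P`. -/
def IsExtS {K : ℕ} (R : Matrix (A × B) (A × B) ℂ) (P : Matrix B B ℂ)
    (L : Matrix (A × (Fin (K + 1) → B)) (A × (Fin (K + 1) → B)) ℂ) : Prop :=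
  L.PosSemidef ∧ (∀ (j : Fin (K + 1)) a b a' b',
    L (a, b ∘ Equiv.swap 0 j) (a', b' ∘ Equiv.swap 0 j) = L (a, b) (a', b')) ∧
    pc L (piT fun _ => P) = R

theorem IsExtS.swap {K : ℕ} {R : Matrix (A × B) (A × B) ℂ} {P : Matrix B B ℂ}
    {L : Matrix (A × (Fin (K + 1) → B)) (A × (Fin (K + 1) → B)) ℂ} (h : IsExtS R P L)
    (j : Fin (K + 1)) (q : Fin (K + 1) → Matrix B B ℂ) :
    ctr L (piT (q ∘ Equiv.swap 0 j)) = ctr L (piT q) := by
  ext a a'
  simp only [ctr]
  have e : Function.Involutive fun b : Fin (K + 1) → B => b ∘ Equiv.swap 0 j := by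
    intro b
    funext i
    simp only [Function.comp, Equiv.swap_apply_self]
  rw [← Equiv.sum_comp (Function.Involutive.toPerm _ e)]
  refine Finset.sum_congr rfl fun b _ => ?_
  rw [← Equiv.sum_comp (Function.Involutive.toPerm _ e)]
  refine Finset.sum_congr rfl fun b' _ => ?_
  have e1 : ∀ b : Fin (K + 1) → B, (Function.Involutive.toPerm _ e) b =
    b ∘ Equiv.swap 0 j := fun b => rfl
  rw [e1, e1, h.2.1 j]
  congr 1
  simp only [piT, Function.comp]
  exact Equiv.prod_comp (Equiv.swap 0 j) fun i => q i (b' i) (b i)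

/-- The main estimate for one transcript. -/
theorem multi_bound {κ : Type} [Fintype κ] [DecidableEq κ] {K : ℕ} (Ψ : Matrix (A × B) E ℂ)
    {W' : Matrix (A × B) (A × B) ℂ} (h1 : (Ψ * Ψᴴ) * W' = 1) {f : κ → Matrix A A ℂ}
    {g : κ → Matrix B B ℂ} (hf : ∀ k, (f k).PosSemidef) (hg : ∀ k, (g k).PosSemidef)
    {P : Matrix B B ℂ} (hP : (P - ∑ k, g k).PosSemidef)
    {L : Matrix (A × (Fin (K + 1) → B)) (A × (Fin (K + 1) → B)) ℂ} (h : IsExtS (Ψ * Ψᴴ) P L)
    {σ : Matrix E E ℂ} (hσ : σ.PosSemidef) :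
    ∑ k, (eve Ψ (f k) (g k)).trace.re ≤ (Fintype.card κ : ℝ)⁻¹ * σ.trace.re +
      ∑ k, ∑ l, traceNorm (eve Ψ (f k) (g l) - if k = l then ((Fintype.card κ : ℂ)⁻¹) • σ
        else 0) + (((∑ k, f k) ⊗ₖ P) * (Ψ * Ψᴴ)).trace.re / (K + 1) := by
  obtain ⟨hL, hsw, hpc⟩ := id h
  obtain ⟨G, hG⟩ : ∃ G, G = ∑ k, g k := ⟨_, rfl⟩
  rw [← hG] at hP
  have hG0 : G.PosSemidef := hG ▸ posSemidef_sum _ fun k _ => hg k
  have hP0 : P.PosSemidef := by
    have h2 := hP.add hG0
    rwa [sub_add_cancel] at h2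
  obtain ⟨U, hU⟩ : ∃ U, U = P - G := ⟨_, rfl⟩
  rw [← hU] at hP
  have hGU : P - U = G := by rw [hU]; abel
  obtain ⟨M, hM⟩ : ∃ M : κ → Matrix (A × B) (A × B) ℂ,
      M = fun k => ∑ j : Fin K, pc L (piT (sq U (g k) P j)) := ⟨_, rfl⟩
  have hsqp : ∀ {K' : ℕ} (u v w : Matrix B B ℂ), u.PosSemidef → v.PosSemidef → w.PosSemidef →
      ∀ j : Fin K', (piT (sq u v w j)).PosSemidef := by
    intro K' u v w hu hv hw j
    refine piT_posSemidef fun i => ?_
    rw [sq]
    split_ifs
    · exact hu
    · exact hv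
    · exact hw
  have hMp : ∀ k, (M k).PosSemidef := by
    intro k
    rw [hM]
    exact posSemidef_sum _ fun j _ => pc_posSemidef hL (hsqp _ _ _ hP (hg k) hP0 j)
  have htele : ∑ j : Fin K, pc L (piT (sq U G P j)) =
      Ψ * Ψᴴ - pc L (piT fun _ => U) := by
    rw [← hpc]
    unfold pc
    rw [ctr_sum, ← ctr_sub, ← piT_tele, hGU]
  have hMs : (Ψ * Ψᴴ - ∑ k, M k).PosSemidef := by
    have e : ∑ k, M k = ∑ j : Fin K, pc L (piT (sq U G P j)) := by
      rw [hM, Finset.sum_comm]
      refine Finset.sum_congr rfl fun j _ => ?_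
      rw [hG, piT_sq_sum]
      unfold pc
      rw [ctr_sum]
    rw [e, htele, sub_sub_cancel]
    exact pc_posSemidef hL (piT_posSemidef fun _ => hP)
  obtain ⟨Z, hZ, hZ1, hZ2⟩ := exists_eve Ψ h1 hMp hMs
  have hle : ∀ k, (1 - Z k).PosSemidef := by
    intro k
    have : 1 - Z k = (1 - ∑ l, Z l) + ∑ l ∈ Finset.univ.erase k, Z l := by
      rw [← Finset.add_sum_erase _ _ (Finset.mem_univ k)]
      abel
    rw [this]
    exact hZ1.add (posSemidef_sum _ fun l _ => hZ l)
  -- the value of the simulation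
  have hval : ∀ k, ((f k ⊗ₖ G) * M k).trace = ((f k ⊗ₖ g k) * (Ψ * Ψᴴ)).trace -
      ((f k ⊗ₖ g k) * pc L (piT fun _ => U)).trace := by
    intro k
    have e1 : ∀ j : Fin K, ((f k ⊗ₖ G) * pc L (piT (sq U (g k) P j))).trace =
        ((f k ⊗ₖ g k) * pc L (piT (sq U G P j))).trace := by
      intro j
      rw [trace_pc, trace_pc, ← h.swap j.succ]
      congr 4
      funext i
      rw [Function.comp]
      refine Fin.cases ?_ (fun i => ?_) i
      · rw [Equiv.swap_apply_left, Fin.cons_succ, Fin.cons_zero, sq, if_neg (lt_irrefl _),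
          if_pos rfl]
      · by_cases hij : i = j
        · rw [hij, Equiv.swap_apply_right, Fin.cons_zero, Fin.cons_succ, sq,
            if_neg (lt_irrefl _), if_pos rfl]
        · have h3 : i.succ ≠ j.succ := fun h4 => hij (Fin.succ_injective _ h4)
          rw [Equiv.swap_apply_of_ne_of_ne (Fin.succ_ne_zero i) h3, Fin.cons_succ,
            Fin.cons_succ, sq, sq, if_neg hij, if_neg hij]
    rw [hM]
    beta_reduce
    rw [Matrix.mul_sum, trace_sum, Finset.sum_congr rfl fun j _ => e1 j, ← trace_sum,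
      ← Matrix.mul_sum, htele, Matrix.mul_sub, trace_sub]
  -- the remainder
  have hrem : ∀ k, ((f k ⊗ₖ g k) * pc L (piT fun _ => U)).trace.re ≤
      ((f k ⊗ₖ P) * (Ψ * Ψᴴ)).trace.re / (K + 1) := by
    intro k
    have e0 : ((f k ⊗ₖ g k) * pc L (piT fun _ => U)).trace.re ≤
        ((f k ⊗ₖ G) * pc L (piT fun _ => U)).trace.re := by
      have e1 : (G - g k).PosSemidef := by
        rw [hG, ← Finset.add_sum_erase _ _ (Finset.mem_univ k), add_sub_cancel_left]
        exact posSemidef_sum _ fun l _ => hg l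
      have e2 := re_tr_mul_nonneg ((hf k).kronecker e1)
        (pc_posSemidef hL (piT_posSemidef fun _ : Fin K => hP))
      have e3 : f k ⊗ₖ (G - g k) = f k ⊗ₖ G - f k ⊗ₖ g k := by
        ext p q
        simp only [kroneckerMap_apply, Matrix.sub_apply, mul_sub]
      rw [e3, Matrix.sub_mul, trace_sub, Complex.sub_re] at e2
      linarith
    have e1 : ∀ j : Fin (K + 1), ctr L (piT (sq U G U j)) =
        ctr L (piT (Fin.cons G fun _ => U)) := by
      intro j
      rw [← h.swap j]
      congr 2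
      funext i
      rw [Function.comp]
      refine Fin.cases ?_ (fun i => ?_) i
      · rw [Equiv.swap_apply_left, Fin.cons_zero, sq, if_neg (lt_irrefl _), if_pos rfl]
      · rw [Fin.cons_succ]
        by_cases hij : i.succ = j
        · rw [hij, Equiv.swap_apply_right, sq]
          have h0 : (0 : Fin (K + 1)) ≠ j := by
            rw [← hij]
            exact (Fin.succ_ne_zero i).symm
          rw [if_neg h0]
          split_ifs <;> rfl
        · rw [Equiv.swap_apply_of_ne_of_ne (Fin.succ_ne_zero i) hij, sq, if_neg hij]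
          split_ifs <;> rfl
    have e2 : ∀ j : Fin (K + 1), (f k * ctr L (piT (Fin.cons G fun _ => U))).trace.re ≤
        (f k * ctr L (piT (sq U G P j))).trace.re := by
      intro j
      rw [← e1 j]
      have e3 : (piT (sq U G P j) - piT (sq U G U j)).PosSemidef := by
        refine Near.piT_sub_piT_posSemidef (fun i => ?_) fun i => ?_
        · rw [sq]
          split_ifs
          · exact hP
          · exact hG0
          · exact hP
        · rw [sq, sq]
          split_ifs
          · rw [sub_self]; exact PosSemidef.zero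
          · rw [sub_self]; exact PosSemidef.zero
          · have : P - U = G := hGU
            rw [this]
            exact hG0
      have e4 := re_tr_mul_nonneg (hf k) (ctr_posSemidef hL e3)
      rw [ctr_sub, Matrix.mul_sub, trace_sub, Complex.sub_re] at e4
      linarith
    have e5 : ∑ j : Fin (K + 1), (f k * ctr L (piT (sq U G P j))).trace.re ≤
        (f k * ctr L (piT fun _ => P)).trace.re := by
      have e6 : ∑ j : Fin (K + 1), ctr L (piT (sq U G P j)) =
          ctr L (piT fun _ => P) - ctr L (piT fun _ => U) := by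
        rw [ctr_sum, ← ctr_sub, ← piT_tele, hGU]
      have e7 := re_tr_mul_nonneg (hf k)
        (ctr_posSemidef hL (piT_posSemidef fun _ : Fin (K + 1) => hP))
      rw [← Complex.re_sum, ← trace_sum, ← Matrix.mul_sum, e6, Matrix.mul_sub, trace_sub,
        Complex.sub_re]
      linarith
    have e8 : (f k * ctr L (piT fun _ : Fin (K + 1) => P)).trace = ((f k ⊗ₖ P) * (Ψ * Ψᴴ)).trace := by
      rw [← hpc, trace_pc]
      congr 4
      funext i
      refine Fin.cases ?_ (fun i => ?_) i
      · rw [Fin.cons_zero]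
      · rw [Fin.cons_succ]
    have e9 : ((f k ⊗ₖ G) * pc L (piT fun _ => U)).trace =
        (f k * ctr L (piT (Fin.cons G fun _ => U))).trace := trace_pc _ _ _ _
    have e10 := (Finset.sum_le_sum fun j (_ : j ∈ (Finset.univ : Finset (Fin (K + 1)))) =>
      e2 j).trans e5
    rw [Finset.sum_const, Finset.card_univ, Fintype.card_fin, nsmul_eq_mul, e8] at e10
    have hK : (0 : ℝ) < K + 1 := by positivity
    rw [le_div_iff₀ hK]
    rw [e9] at e0
    push_cast at e10
    nlinarith
  -- conclusion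
  have hb : ∀ k, ((f k ⊗ₖ G) * M k).trace.re ≤
      (Fintype.card κ : ℝ)⁻¹ * (Z k * σ).trace.re +
      ∑ l, traceNorm (eve Ψ (f k) (g l) - if k = l then ((Fintype.card κ : ℂ)⁻¹) • σ else 0) := by
    intro k
    have e0 : ((f k ⊗ₖ G) * M k).trace = ∑ l, (Z k * eve Ψ (f k) (g l)).trace := by
      rw [← hZ2, hG, eve_sum_right, Matrix.mul_sum, trace_sum]
    have e1 : ∑ l, (Z k * eve Ψ (f k) (g l)).trace = ((Fintype.card κ : ℂ)⁻¹) * (Z k * σ).trace +
        ∑ l, (Z k * (eve Ψ (f k) (g l) - if k = l then ((Fintype.card κ : ℂ)⁻¹) • σ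
          else 0)).trace := by
      simp only [Matrix.mul_sub, trace_sub, Finset.sum_sub_distrib]
      have e2 : ∑ l, (Z k * if k = l then ((Fintype.card κ : ℂ)⁻¹) • σ else 0).trace =
          ((Fintype.card κ : ℂ)⁻¹) * (Z k * σ).trace := by
        rw [Finset.sum_eq_single k]
        · rw [if_pos rfl, Matrix.mul_smul, trace_smul, smul_eq_mul]
        · intro l _ hl
          rw [if_neg (Ne.symm hl), Matrix.mul_zero, trace_zero]
        · simp
      rw [e2]
      ring
    rw [e0, e1, Complex.add_re]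
    refine add_le_add (le_of_eq ?_) ?_
    · have : ((Fintype.card κ : ℂ)⁻¹) = (((Fintype.card κ : ℝ)⁻¹ : ℝ) : ℂ) := by push_cast; rfl
      rw [this, Complex.re_ofReal_mul]
    · rw [Complex.re_sum]
      refine Finset.sum_le_sum fun l _ => ?_
      exact (Complex.re_le_norm _).trans
        (norm_trace_mul_le (contr_of_between (hZ k) (hle k)) _)
  have e2 : ∀ k, (eve Ψ (f k) (g k)).trace = ((f k ⊗ₖ g k) * (Ψ * Ψᴴ)).trace := by
    intro k
    rw [eve_eq', trace_transpose, trace_mul_comm, ← Matrix.mul_assoc, trace_mul_comm]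
  have hone : ∀ k, (eve Ψ (f k) (g k)).trace.re ≤
      ((Fintype.card κ : ℝ)⁻¹ * (Z k * σ).trace.re +
      ∑ l, traceNorm (eve Ψ (f k) (g l) - if k = l then ((Fintype.card κ : ℂ)⁻¹) • σ else 0)) +
      ((f k ⊗ₖ P) * (Ψ * Ψᴴ)).trace.re / (K + 1) := by
    intro k
    have h3 := hb k
    have h4 := hrem k
    have h5 := congrArg Complex.re (hval k)
    rw [Complex.sub_re] at h5
    rw [e2]
    linarith
  refine (Finset.sum_le_sum fun k _ => hone k).trans ?_
  rw [Finset.sum_add_distrib, Finset.sum_add_distrib, ← Finset.mul_sum]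
  have e5 : ∑ k, ((f k ⊗ₖ P) * (Ψ * Ψᴴ)).trace.re / (K + 1) =
      (((∑ k, f k) ⊗ₖ P) * (Ψ * Ψᴴ)).trace.re / (K + 1) := by
    rw [← Finset.sum_div]
    congr 1
    have e6 : (∑ k, f k) ⊗ₖ P = ∑ k, f k ⊗ₖ P := by
      ext p q
      simp only [kroneckerMap_apply, Matrix.sum_apply, Finset.sum_mul]
    rw [e6, Matrix.sum_mul, trace_sum, Complex.re_sum]
  rw [e5]
  refine add_le_add (add_le_add (mul_le_mul_of_nonneg_left ?_ (by positivity)) le_rfl) le_rfl
  have e3 : ∑ k, (Z k * σ).trace.re = ((∑ k, Z k) * σ).trace.re := by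
    rw [Matrix.sum_mul, trace_sum, Complex.re_sum]
  have e4 : 0 ≤ ((1 - ∑ k, Z k) * σ).trace.re := re_tr_mul_nonneg hZ1 hσ
  rw [Matrix.sub_mul, Matrix.one_mul, trace_sub, Complex.sub_re] at e4
  rw [e3]
  linarith

end BF

end Vale.Agent.P372
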