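import Vale.Agent.P372.BF.Multi

open Matrix Kronecker
open scoped ComplexOrder MatrixOrder

set_option linter.unusedSectionVars false
set_option linter.unnecessarySeqFocus false

namespace Vale.Agent.P372

namespace BF

variable {A B E X Y : Type} [Fintype A] [DecidableEq A] [Fintype B] [DecidableEq B]
  [Fintype E] [DecidableEq E] [Fintype X] [DecidableEq X] [Fintype Y] [DecidableEq Y]

theorem sum2_prod {K : ℕ} (G : Fin K → B → B → ℂ) :
    ∑ y : Fin K → B, ∑ y' : Fin K → B, ∏ i, G i (y i) (y' i) = ∏ i, ∑ c, ∑ c', G i c c' := by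
  have e1 : ∀ y : Fin K → B, ∑ y' : Fin K → B, ∏ i, G i (y i) (y' i) =
      ∏ i, ∑ c', G i (y i) c' := by
    intro y
    rw [Finset.prod_univ_sum, Fintype.piFinset_univ]
  simp only [e1]
  have e2 := Finset.prod_univ_sum (fun _ : Fin K => (Finset.univ : Finset B))
    (fun i c => ∑ c', G i c c')
  rw [Fintype.piFinset_univ] at e2
  exact e2.symm

theorem sum_diag {K : ℕ} {Q : Matrix B B ℂ} (hQ : Q.trace = 1) :
    ∑ y : Fin K → B, ∑ y' : Fin K → B, (if y = y' then (1 : ℂ) else 0) * ∏ i, Q (y' i) (y i) = 1 := by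
  have e1 : ∀ y : Fin K → B, ∑ y' : Fin K → B, (if y = y' then (1 : ℂ) else 0) *
      ∏ i, Q (y' i) (y i) = ∏ i, Q (y i) (y i) := by
    intro y
    rw [Finset.sum_eq_single y]
    · rw [if_pos rfl, one_mul]
    · intro y' _ h
      rw [if_neg (Ne.symm h), zero_mul]
    · simp
  simp only [e1]
  have e2 := Finset.prod_univ_sum (fun _ : Fin K => (Finset.univ : Finset B))
    (fun _ c => Q c c)
  rw [Fintype.piFinset_univ] at e2
  rw [← e2]
  have e3 : ∑ c, Q c c = 1 := hQ
  simp only [e3, Finset.prod_const_one]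

theorem sum_one {K : ℕ} {Q : Matrix B B ℂ} (hQ : Q.trace = 1) (m : Fin K) (F : B → B → ℂ) :
    ∑ y : Fin K → B, ∑ y' : Fin K → B, (F (y m) (y' m) *
      if ∀ i, i ≠ m → y i = y' i then 1 else 0) * ∏ i, Q (y' i) (y i) =
      ∑ c, ∑ c', F c c' * Q c' c := by
  have e1 : ∀ y y' : Fin K → B, (F (y m) (y' m) *
      if ∀ i, i ≠ m → y i = y' i then 1 else 0) * ∏ i, Q (y' i) (y i) =
      ∏ i, (fun i c c' => if i = m then F c c' * Q c' c else
        if c = c' then Q c' c else 0) i (y i) (y' i) := by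
    intro y y'
    rw [← Finset.mul_prod_erase Finset.univ _ (Finset.mem_univ m),
      ← Finset.mul_prod_erase Finset.univ (fun i => (fun i c c' => if i = m then F c c' * Q c' c
        else if c = c' then Q c' c else 0) i (y i) (y' i)) (Finset.mem_univ m)]
    beta_reduce
    rw [if_pos rfl]
    have e2 : ∏ i ∈ Finset.univ.erase m, (if i = m then F (y i) (y' i) * Q (y' i) (y i) else
        if y i = y' i then Q (y' i) (y i) else 0) =
        if ∀ i, i ≠ m → y i = y' i then ∏ i ∈ Finset.univ.erase m, Q (y' i) (y i) else 0 := by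
      have e3 : ∏ i ∈ Finset.univ.erase m, (if i = m then F (y i) (y' i) * Q (y' i) (y i) else
          if y i = y' i then Q (y' i) (y i) else 0) =
          ∏ i ∈ Finset.univ.erase m, (if y i = y' i then Q (y' i) (y i) else 0) :=
        Finset.prod_congr rfl fun i hi => by rw [if_neg (Finset.ne_of_mem_erase hi)]
      rw [e3, Finset.prod_ite_zero]
      congr 1
      simp only [Finset.mem_erase, Finset.mem_univ, and_true]
    rw [e2]
    split_ifs <;> ring
  refine (Finset.sum_congr rfl fun y _ => Finset.sum_congr rfl fun y' _ => e1 y y').trans ?_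
  refine (sum2_prod (fun (i : Fin K) (c c' : B) => if i = m then F c c' * Q c' c else
    if c = c' then Q c' c else 0)).trans ?_
  rw [← Finset.mul_prod_erase Finset.univ _ (Finset.mem_univ m)]
  have e4 : ∏ i ∈ Finset.univ.erase m, ∑ c, ∑ c', (if i = m then F c c' * Q c' c else
      if c = c' then Q c' c else 0) = 1 := by
    refine Finset.prod_eq_one fun i hi => ?_
    have e5 : ∑ c, Q c c = 1 := hQ
    simp [Finset.ne_of_mem_erase hi, e5]
  rw [e4, mul_one]
  simp

/-- Symmetric extensions of one block. -/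
theorem exists_extS_one {K : ℕ} {R : Matrix (A × B) (A × B) ℂ} {r : ℝ}
    (h1 : (R - (r : ℂ) • 1).PosSemidef)
    (h2 : ((((K + 1) * r : ℝ) : ℂ) • 1 - ((K : ℝ) : ℂ) • R).PosSemidef) {Q : Matrix B B ℂ}
    (hQ : Q.PosSemidef) (hQ1 : Q.trace = 1) :
    ∃ L : Matrix (A × (Fin (K + 1) → B)) (A × (Fin (K + 1) → B)) ℂ, IsExtS R Q L := by
  have hV := ctr_posSemidef h2 hQ
  obtain ⟨D, hD⟩ : ∃ D, D = R - (r : ℂ) • 1 := ⟨_, rfl⟩
  rw [← hD] at h1
  have hR : ∀ p q, R p q = D p q + (r : ℂ) * if p = q then 1 else 0 := by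
    intro p q
    rw [hD]
    simp only [Matrix.sub_apply, Matrix.smul_apply, Matrix.one_apply, smul_eq_mul]
    ring
  have hQt : ∑ c, Q c c = 1 := hQ1
  have hVv : ∀ a a', ctr ((((K + 1) * r : ℝ) : ℂ) • 1 - ((K : ℝ) : ℂ) • R) Q a a' =
      (r : ℂ) * (if a = a' then 1 else 0) - K * ∑ c, ∑ c', D (a, c) (a', c') * Q c' c := by
    intro a a'
    have e : ∀ c c', ((((K + 1) * r : ℝ) : ℂ) • (1 : Matrix (A × B) (A × B) ℂ) -
        ((K : ℝ) : ℂ) • R) (a, c) (a', c') * Q c' c =
        (r : ℂ) * (if a = a' then 1 else 0) * (if c = c' then Q c' c else 0) -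
          K * (D (a, c) (a', c') * Q c' c) := by
      intro c c'
      simp only [Matrix.sub_apply, Matrix.smul_apply, Matrix.one_apply, smul_eq_mul, hR,
        Prod.mk.injEq]
      push_cast
      by_cases h3 : a = a' <;> by_cases h4 : c = c' <;> simp [h3, h4] <;> ring
    simp only [ctr, e, Finset.sum_sub_distrib, ← Finset.mul_sum]
    have : ∑ c, ∑ c', (if c = c' then Q c' c else 0) = 1 := by
      simp [hQt]
    rw [this, mul_one]
  obtain ⟨V, hV'⟩ : ∃ V, V = ctr ((((K + 1) * r : ℝ) : ℂ) • 1 - ((K : ℝ) : ℂ) • R) Q := ⟨_, rfl⟩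
  rw [← hV'] at hV hVv
  obtain ⟨L, hL⟩ : ∃ L : Matrix (A × (Fin (K + 1) → B)) (A × (Fin (K + 1) → B)) ℂ,
      L = fun p q => V p.1 q.1 * (if p.2 = q.2 then 1 else 0) +
        ∑ j : Fin (K + 1), D (p.1, p.2 j) (q.1, q.2 j) *
          if ∀ i, i ≠ j → p.2 i = q.2 i then 1 else 0 := ⟨_, rfl⟩
  refine ⟨L, ?_, ?_, ?_⟩
  · have p1 := ext_posSemidef (Z := A × (Fin (K + 1) → B)) (Y := Fin (K + 1) → B) hV
      (fun p => p.1) (fun p => p.2)
    have p2 := fun j : Fin (K + 1) => ext_posSemidef (Z := A × (Fin (K + 1) → B))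
      (Y := {i // i ≠ j} → B) h1 (fun p => (p.1, p.2 j)) (fun p i => p.2 i)
    have e : L = (Matrix.of fun p q : A × (Fin (K + 1) → B) => V p.1 q.1 *
        if p.2 = q.2 then 1 else 0) + ∑ j : Fin (K + 1),
        (Matrix.of fun p q : A × (Fin (K + 1) → B) => D (p.1, p.2 j) (q.1, q.2 j) *
          if (fun i : {i // i ≠ j} => p.2 i) = (fun i : {i // i ≠ j} => q.2 i) then 1 else 0) := by
      rw [hL]
      ext p q
      simp only [Matrix.add_apply, Matrix.of_apply, Matrix.sum_apply]
      congr 1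
      refine Finset.sum_congr rfl fun j _ => ?_
      congr 1
      have e2 : ((fun i : {i // i ≠ j} => p.2 i) = (fun i : {i // i ≠ j} => q.2 i)) ↔
          ∀ i, i ≠ j → p.2 i = q.2 i :=
        ⟨fun h i hi => congrFun h ⟨i, hi⟩, fun h => funext fun i => h i.1 i.2⟩
      simp only [e2]
    rw [e]
    exact p1.add (posSemidef_sum _ fun j _ => p2 j)
  · intro j a b a' b'
    rw [hL]
    beta_reduce
    congr 1
    · congr 1
      have e : b ∘ Equiv.swap 0 j = b' ∘ Equiv.swap 0 j ↔ b = b' :=
        ⟨fun h => funext fun i => by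
          have := congrFun h (Equiv.swap 0 j i)
          simpa [Function.comp] using this, fun h => by rw [h]⟩
      simp only [e]
    · rw [← Equiv.sum_comp (Equiv.swap 0 j)]
      refine Finset.sum_congr rfl fun m _ => ?_
      have e : (∀ i, i ≠ Equiv.swap 0 j m → (b ∘ Equiv.swap 0 j) i = (b' ∘ Equiv.swap 0 j) i) ↔
          ∀ i, i ≠ m → b i = b' i := by
        constructor
        · intro h i hi
          have h3 := h (Equiv.swap 0 j i) (fun h4 => hi ((Equiv.swap 0 j).injective h4))
          simpa [Function.comp] using h3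
        · intro h i hi
          exact h _ (fun h4 => hi (by rw [← h4, Equiv.swap_apply_self]))
      simp only [e]
      simp only [Function.comp, Equiv.swap_apply_self]
  · ext p q
    obtain ⟨a, b⟩ := p
    obtain ⟨a', b'⟩ := q
    simp only [pc, ctr, Matrix.submatrix_apply, piT]
    have e1 : ∀ y y' : Fin K → B, L (a, Fin.cons b y) (a', Fin.cons b' y') =
        (V a a' * (if b = b' then 1 else 0) + D (a, b) (a', b')) * (if y = y' then 1 else 0) +
        (if b = b' then 1 else 0) * ∑ m : Fin K, D (a, y m) (a', y' m) *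
          if ∀ i, i ≠ m → y i = y' i then 1 else 0 := by
      intro y y'
      rw [hL]
      beta_reduce
      rw [Fin.sum_univ_succ]
      simp only [Fin.cons_zero, Fin.cons_succ]
      have c1 : ((Fin.cons b y : Fin (K + 1) → B) = Fin.cons b' y') ↔ (b = b' ∧ y = y') :=
        Fin.cons_inj
      have c2 : (∀ i : Fin (K + 1), i ≠ 0 → (Fin.cons b y : Fin (K + 1) → B) i =
          (Fin.cons b' y' : Fin (K + 1) → B) i) ↔ y = y' := by
        constructor
        · intro h
          funext i
          have := h i.succ (Fin.succ_ne_zero i)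
          simpa only [Fin.cons_succ] using this
        · intro h i hi
          obtain ⟨m, rfl⟩ := Fin.exists_succ_eq_of_ne_zero hi
          rw [Fin.cons_succ, Fin.cons_succ, h]
      have c3 : ∀ m : Fin K, (∀ i : Fin (K + 1), i ≠ m.succ →
          (Fin.cons b y : Fin (K + 1) → B) i = (Fin.cons b' y' : Fin (K + 1) → B) i) ↔
          (b = b' ∧ ∀ i, i ≠ m → y i = y' i) := by
        intro m
        constructor
        · intro h
          refine ⟨?_, fun i hi => ?_⟩
          · have := h 0 (Fin.succ_ne_zero m).symm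
            simpa only [Fin.cons_zero] using this
          · have := h i.succ (fun h4 => hi (Fin.succ_injective _ h4))
            simpa only [Fin.cons_succ] using this
        · rintro ⟨h3, h4⟩ i hi
          rcases Fin.eq_zero_or_eq_succ i with h0 | ⟨k, rfl⟩
          · rw [h0, Fin.cons_zero, Fin.cons_zero, h3]
          · rw [Fin.cons_succ, Fin.cons_succ]
            exact h4 k (fun h5 => hi (by rw [h5]))
      simp only [c1, c2, c3]
      by_cases h3 : b = b' <;> by_cases h4 : y = y'
      · simp only [h3, h4, and_self, true_and, if_true]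
        ring
      · simp only [h3, h4, and_false, true_and, if_true, if_false]
        ring
      · simp only [h3, h4, false_and, if_true, if_false]
        simp
      · simp only [h3, h4, false_and, if_false]
        simp
    have e2 : ∀ y y' : Fin K → B, L (a, Fin.cons b y) (a', Fin.cons b' y') *
        ∏ i, Q (y' i) (y i) =
        (V a a' * (if b = b' then 1 else 0) + D (a, b) (a', b')) *
          ((if y = y' then (1 : ℂ) else 0) * ∏ i, Q (y' i) (y i)) +
        (if b = b' then 1 else 0) * ∑ m : Fin K, ((D (a, y m) (a', y' m) *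
          if ∀ i, i ≠ m → y i = y' i then 1 else 0) * ∏ i, Q (y' i) (y i)) := by
      intro y y'
      rw [e1, add_mul, ← Finset.sum_mul]
      ring
    simp only [e2, Finset.sum_add_distrib, ← Finset.mul_sum]
    rw [sum_diag hQ1]
    have e3 : ∑ y : Fin K → B, ∑ y' : Fin K → B, ∑ m : Fin K, ((D (a, y m) (a', y' m) *
          if ∀ i, i ≠ m → y i = y' i then 1 else 0) * ∏ i, Q (y' i) (y i)) =
        K * ∑ c, ∑ c', D (a, c) (a', c') * Q c' c := by
      have e4 : ∀ y : Fin K → B, ∑ y' : Fin K → B, ∑ m : Fin K, ((D (a, y m) (a', y' m) *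
          if ∀ i, i ≠ m → y i = y' i then 1 else 0) * ∏ i, Q (y' i) (y i)) =
          ∑ m : Fin K, ∑ y' : Fin K → B, ((D (a, y m) (a', y' m) *
          if ∀ i, i ≠ m → y i = y' i then 1 else 0) * ∏ i, Q (y' i) (y i)) :=
        fun y => Finset.sum_comm
      simp only [e4]
      rw [Finset.sum_comm]
      have e5 : ∀ m : Fin K, ∑ y : Fin K → B, ∑ y' : Fin K → B, ((D (a, y m) (a', y' m) *
          if ∀ i, i ≠ m → y i = y' i then 1 else 0) * ∏ i, Q (y' i) (y i)) =
          ∑ c, ∑ c', D (a, c) (a', c') * Q c' c :=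
        fun m => sum_one hQ1 m fun c c' => D (a, c) (a', c')
      simp only [e5, Finset.sum_const, Finset.card_univ, Fintype.card_fin, nsmul_eq_mul]
    rw [e3, hVv, hR]
    by_cases h3 : a = a' <;> by_cases h4 : b = b' <;> simp [h3, h4] <;> ring

theorem exists_extS {K : ℕ} {R : Matrix (A × B) (A × B) ℂ} {r : ℝ}
    (h1 : (R - (r : ℂ) • 1).PosSemidef)
    (h2 : ((((K + 1) * r : ℝ) : ℂ) • 1 - ((K : ℝ) : ℂ) • R).PosSemidef) {Q : Matrix B B ℂ}
    (hQ : Q.PosSemidef) (hQ0 : Q.trace ≠ 0) :
    ∃ L : Matrix (A × (Fin (K + 1) → B)) (A × (Fin (K + 1) → B)) ℂ, IsExtS R Q L := by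
  obtain ⟨τ, hτ⟩ : ∃ τ : ℝ, Q.trace = (τ : ℂ) := ⟨Q.trace.re, by
    have := hQ.trace_nonneg
    rw [Complex.le_def] at this
    apply Complex.ext
    · simp
    · simpa using this.2.symm⟩
  have hτ0 : 0 < τ := by
    have h3 := hQ.trace_nonneg
    rw [hτ] at h3 hQ0
    have h4 : 0 ≤ τ := by exact_mod_cast h3
    have h5 : τ ≠ 0 := by exact_mod_cast hQ0
    exact lt_of_le_of_ne h4 (Ne.symm h5)
  have hτc : (τ : ℂ) ≠ 0 := by exact_mod_cast hτ0.ne'
  have hQ' : (((τ⁻¹ : ℝ) : ℂ) • Q).PosSemidef :=
    hQ.smul (by exact_mod_cast (inv_pos.mpr hτ0).le)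
  have hQ1 : (((τ⁻¹ : ℝ) : ℂ) • Q).trace = 1 := by
    rw [trace_smul, hτ, smul_eq_mul]
    push_cast
    exact inv_mul_cancel₀ hτc
  obtain ⟨L, hL, hL1, hL2⟩ := exists_extS_one h1 h2 hQ' hQ1
  refine ⟨(((τ⁻¹) ^ K : ℝ) : ℂ) • L,
    hL.smul (by exact_mod_cast pow_nonneg (inv_pos.mpr hτ0).le K), ?_, ?_⟩
  · intro j a b a' b'
    rw [Matrix.smul_apply, Matrix.smul_apply, hL1]
  · rw [← hL2]
    ext p q
    simp only [pc, ctr, Matrix.submatrix_apply, piT, Matrix.smul_apply, smul_eq_mul]
    refine Finset.sum_congr rfl fun c _ => Finset.sum_congr rfl fun c' _ => ?_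
    rw [Finset.prod_mul_distrib, Finset.prod_const, Finset.card_univ, Fintype.card_fin]
    push_cast
    ring

section blocks

variable {n m K : ℕ} (π : Fin n → Fin m)

/-- The blocks of a partition, several systems. -/
def blk2 : (Fin K → Fin n → X) ≃ (∀ i, Fin K → {j // π j = i} → X) where
  toFun x i k j := x k j.1
  invFun z k j := z (π j) k ⟨j, rfl⟩
  left_inv x := rfl
  right_inv z := by
    funext i k ⟨j, hj⟩
    subst hj
    rfl

theorem sum_blk2 (F : ∀ i, (Fin K → {j // π j = i} → X) → ℂ) :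
    ∑ x : Fin K → Fin n → X, ∏ i, F i (fun k j => x k j) = ∏ i, ∑ y, F i y := by
  have h2 := Finset.prod_univ_sum
    (fun i : Fin m => (Finset.univ : Finset (Fin K → {j // π j = i} → X))) F
  rw [Fintype.piFinset_univ] at h2
  rw [h2, ← Equiv.sum_comp (blk2 (K := K) π)]
  rfl

theorem extS_blocks
    {R : ∀ i, Matrix (({j // π j = i} → A) × ({j // π j = i} → B))
      (({j // π j = i} → A) × ({j // π j = i} → B)) ℂ}
    {Q : ∀ i, Matrix ({j // π j = i} → B) ({j // π j = i} → B) ℂ}
    (h : ∀ i, ∃ L : Matrix (({j // π j = i} → A) × (Fin (K + 1) → {j // π j = i} → B))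
      (({j // π j = i} → A) × (Fin (K + 1) → {j // π j = i} → B)) ℂ, IsExtS (R i) (Q i) L)
    {P : Matrix (Fin n → B) (Fin n → B) ℂ}
    (hP : ∀ p q, P p q = ∏ i, Q i (fun j => p j) (fun j => q j)) :
    ∃ L : Matrix ((Fin n → A) × (Fin (K + 1) → Fin n → B))
      ((Fin n → A) × (Fin (K + 1) → Fin n → B)) ℂ, IsExtS (bprod π R) P L := by
  choose L hL using h
  refine ⟨fun p q => ∏ i, L i (fun j => p.1 j, fun k j => p.2 k j)
    (fun j => q.1 j, fun k j => q.2 k j), ?_, ?_, ?_⟩
  · exact (piD_posSemidef fun i => (hL i).1).submatrix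
      (fun (p : (Fin n → A) × (Fin (K + 1) → Fin n → B)) (i : Fin m) =>
        ((fun j => p.1 j, fun k j => p.2 k j) :
          ({j // π j = i} → A) × (Fin (K + 1) → {j // π j = i} → B)))
  · intro j a b a' b'
    exact Finset.prod_congr rfl fun i _ =>
      (hL i).2.1 j (fun j => a j) (fun k j => b k j) (fun j => a' j) (fun k j => b' k j)
  · ext p q
    obtain ⟨a, b⟩ := p
    obtain ⟨a', b'⟩ := q
    change (∑ y : Fin K → Fin n → B, ∑ y' : Fin K → Fin n → B,
      (∏ i, L i (fun j => a j, fun k j => (Fin.cons b y : Fin (K + 1) → Fin n → B) k j)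
          (fun j => a' j, fun k j => (Fin.cons b' y' : Fin (K + 1) → Fin n → B) k j)) *
          ∏ k, P (y' k) (y k)) = ∏ i, R i (fun j => a j, fun j => b j)
            (fun j => a' j, fun j => b' j)
    have e1 : ∀ (i : Fin m) (b : Fin n → B) (y : Fin K → Fin n → B),
        (fun (k : Fin (K + 1)) (j : {j // π j = i}) =>
          (Fin.cons b y : Fin (K + 1) → Fin n → B) k j) =
        (Fin.cons (fun j : {j // π j = i} => b j) (fun k (j : {j // π j = i}) => y k j) :
          Fin (K + 1) → {j // π j = i} → B) := by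
      intro i b y
      funext k
      refine Fin.cases ?_ (fun k => ?_) k
      · funext j
        rw [Fin.cons_zero, Fin.cons_zero]
      · funext j
        rw [Fin.cons_succ, Fin.cons_succ]
    have e2 : ∀ y y' : Fin K → Fin n → B,
        (∏ i, L i (fun j => a j, fun k j => (Fin.cons b y : Fin (K + 1) → Fin n → B) k j)
          (fun j => a' j, fun k j => (Fin.cons b' y' : Fin (K + 1) → Fin n → B) k j)) *
          ∏ k, P (y' k) (y k) =
        ∏ i, (L i (fun j => a j, Fin.cons (fun j => b j) (fun k j => y k j))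
          (fun j => a' j, Fin.cons (fun j => b' j) (fun k j => y' k j)) *
          ∏ k, Q i (fun j => y' k j) (fun j => y k j)) := by
      intro y y'
      rw [Finset.prod_mul_distrib]
      congr 1
      · exact Finset.prod_congr rfl fun i _ => by rw [e1, e1]
      · simp only [hP]
        exact Finset.prod_comm
    refine (Finset.sum_congr rfl fun y _ => Finset.sum_congr rfl fun y' _ => e2 y y').trans ?_
    have e3 : ∀ y : Fin K → Fin n → B, ∑ y' : Fin K → Fin n → B,
        ∏ i, (L i (fun j => a j, Fin.cons (fun j => b j) (fun k j => y k j))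
          (fun j => a' j, Fin.cons (fun j => b' j) (fun k j => y' k j)) *
          ∏ k, Q i (fun j => y' k j) (fun j => y k j)) =
        ∏ i, ∑ z' : Fin K → {j // π j = i} → B,
          (L i (fun j => a j, Fin.cons (fun j => b j) (fun k j => y k j))
          (fun j => a' j, Fin.cons (fun j => b' j) z') *
          ∏ k, Q i (z' k) (fun j => y k j)) := by
      intro y
      exact sum_blk2 π fun i z' =>
        (L i (fun j => a j, Fin.cons (fun j => b j) (fun k j => y k j))
          (fun j => a' j, Fin.cons (fun j => b' j) z') *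
          ∏ k, Q i (z' k) (fun j => y k j))
    refine (Finset.sum_congr rfl fun y _ => e3 y).trans ?_
    refine (sum_blk2 π fun i z => ∑ z' : Fin K → {j // π j = i} → B,
          (L i (fun j => a j, Fin.cons (fun j => b j) z)
          (fun j => a' j, Fin.cons (fun j => b' j) z') *
          ∏ k, Q i (z' k) (z k))).trans ?_
    refine Finset.prod_congr rfl fun i _ => ?_
    have e4 := congrFun (congrFun (hL i).2.2 (fun j => a j, fun j => b j))
      (fun j => a' j, fun j => b' j)
    simp only [pc, ctr, Matrix.submatrix_apply, piT] at e4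
    exact e4

end blocks

end BF

end Vale.Agent.P372
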